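import Mathlib.FieldTheory.Finite.GaloisField
import Mathlib.GroupTheory.SpecificGroups.Cyclic

/-!
Subfields of finite fields, and subrings of finite rings of scalars.
-/

namespace Vale.Agent.P183W5

theorem mem_of_pow_card {G : Type} [Group G] [Finite G] [IsCyclic G] {H : Subgroup G} {x : G}
    (h : x ^ Nat.card H = 1) : x ∈ H := by
  classical
  have := Fintype.ofFinite G
  have h1 := IsCyclic.card_pow_eq_one_le (α := G) (Nat.card_pos (α := H))
  have h2 : (H : Set G).toFinset ⊆ Finset.univ.filter fun a : G => a ^ Nat.card H = 1 :=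
    fun a ha => Finset.mem_filter.2 ⟨Finset.mem_univ a,
      congrArg Subtype.val (pow_card_eq_one' (x := (⟨a, by simpa using ha⟩ : H)))⟩
  have h3 := Finset.eq_of_subset_of_card_le h2 (h1.trans (by simp))
  simpa using h3.ge (Finset.mem_filter.2 ⟨Finset.mem_univ x, h⟩)

theorem inv_mem_of_unit {C : Type} [Ring C] [Finite C] {K : Subring C} {x y : C} (hx : x ∈ K)
    (h : x * y = 1) : y ∈ K := by
  obtain ⟨n, hn, e⟩ := isOfFinOrder_iff_pow_eq_one.1 (IsUnit.of_mul_eq_one y h).isOfFinOrder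
  obtain ⟨n, rfl⟩ := Nat.exists_eq_succ_of_ne_zero hn.ne'
  rw [← one_mul y, ← e, pow_succ, mul_assoc, h, mul_one]
  exact pow_mem hx n

/-- The lattice of subfields of a finite field is distributive. -/
theorem field_distrib {F : Type} [Field F] [Finite F] {K₁ K₂ K₃ : Subring F} (h₂ : K₁ ⊔ K₂ = ⊤)
    (h₃ : K₁ ⊔ K₃ = ⊤) (h : K₂ ⊓ K₃ ≤ K₁) : K₁ = ⊤ := by
  let I : Subring F → IntermediateField (⊥ : Subfield F) F := fun K =>
    let L : Subfield F := { K with
      inv_mem' := fun x hx => by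
        by_cases h0 : x = 0
        · simp [h0]
        · exact inv_mem_of_unit (K := K) hx (mul_inv_cancel₀ h0) }
    L.toIntermediateField fun x => (bot_le : ⊥ ≤ L) x.2
  have key : ∀ {K L : Subring F}, K ⊔ L = ⊤ → ∀ σ ∈ (I K).fixingSubgroup,
      σ ∈ (I L).fixingSubgroup → σ = 1 := fun {K L} e σ h1 h2 => AlgEquiv.ext fun x => by
    have : K ⊔ L ≤ RingHom.eqLocus (σ : F →+* F) (RingHom.id F) :=
      sup_le (fun y hy => h1 ⟨y, hy⟩) fun y hy => h2 ⟨y, hy⟩
    exact this (e.ge trivial)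
  have h1 : (I K₁).fixingSubgroup = ⊥ := by
    refine le_bot_iff.1 fun σ hσ => ?_
    have h4 : σ ∈ (I K₂).fixingSubgroup ⊔ (I K₃).fixingSubgroup := by
      rw [← IntermediateField.fixingSubgroup_fixedField (_ ⊔ _)]
      refine (IntermediateField.mem_fixingSubgroup_iff _ _).2 fun x hx => hσ ⟨x, h ⟨?_, ?_⟩⟩
      · exact (IsGalois.fixedField_fixingSubgroup (I K₂)).le
          (IntermediateField.fixedField_le le_sup_left hx)
      · exact (IsGalois.fixedField_fixingSubgroup (I K₃)).le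
          (IntermediateField.fixedField_le le_sup_right hx)
    let _ := IsCyclic.commGroup (α := Gal(F/(⊥ : Subfield F)))
    obtain ⟨y, hy, z, hz, rfl⟩ := Subgroup.mem_sup.1 h4
    refine key h₂ _ hσ (mem_of_pow_card (key h₃ _ (pow_mem hσ _) ?_))
    rw [mul_pow, show y ^ _ = 1 from congrArg Subtype.val (pow_card_eq_one' (x := ⟨y, hy⟩)), one_mul]
    exact pow_mem hz _
  have h2 := IsGalois.fixedField_fixingSubgroup (I K₁)
  rw [h1, IntermediateField.fixedField_bot] at h2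
  exact top_le_iff.1 fun x _ => h2.le trivial

/-- The same for subrings of a ring with involution whose symmetric elements form a field. -/
theorem star_distrib {C : Type} [CommRing C] [Finite C] [Nontrivial C] (s : C →+* C)
    (hs : ∀ x, s (s x) = x) (hi : ∀ x, s x = x → x ≠ 0 → IsUnit x) (hr : ∀ x : C, x * x = 0 → x = 0)
    {K₁ K₂ K₃ : Subring C} (s₁ : ∀ x ∈ K₁, s x ∈ K₁) (s₂ : ∀ x ∈ K₂, s x ∈ K₂)
    (s₃ : ∀ x ∈ K₃, s x ∈ K₃) (hu : (∀ x, s x = x) ∨ ∃ u ∈ K₂ ⊓ K₃, s u ≠ u) (h₂ : K₁ ⊔ K₂ = ⊤)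
    (h₃ : K₁ ⊔ K₃ = ⊤) (h : K₂ ⊓ K₃ ≤ K₁) : K₁ = ⊤ := by
  let F := RingHom.eqLocus s (RingHom.id C)
  have hF : IsField F := ⟨exists_pair_ne F, mul_comm, fun {x} hx => by
    obtain ⟨y, hy⟩ := (hi x x.2 fun e => hx (Subtype.ext e)).exists_right_inv
    exact ⟨⟨y, inv_mem_of_unit x.2 hy⟩, Subtype.ext hy⟩⟩
  let _ := hF.toField
  obtain ⟨u, hu, dec, uniq⟩ : ∃ u ∈ K₂ ⊓ K₃, (∀ K : Subring C, (∀ x ∈ K, s x ∈ K) → u ∈ K →
      ∀ x ∈ K, ∃ a ∈ K.comap F.subtype, ∃ b ∈ K.comap F.subtype, x = a.1 + b.1 * u) ∧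
      ∀ b : F, s (b.1 * u) = b.1 * u → b.1 * u = 0 := by
    rcases hu with hu | ⟨u, hu, h0⟩
    · exact ⟨0, zero_mem _, fun K _ _ x hx => ⟨⟨x, hu x⟩, hx, 0, zero_mem _, by simp⟩, by simp⟩
    obtain ⟨w, hw⟩ := (isUnit_of_mul_isUnit_left (hi ((u - s u) * (u - s u)) (by
      rw [map_mul, map_sub, hs]; ring) fun e => h0 (sub_eq_zero.1 (hr _ e)).symm)).exists_right_inv
    have hw' : s w = -w := by
      have := congrArg s hw
      rw [map_mul, map_sub, hs, map_one] at this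
      linear_combination (-w) * this - s w * hw
    refine ⟨u, hu, fun K h1 h2 x hx => ?_, fun b hb => ?_⟩
    · have h3 := K.mul_mem (K.sub_mem hx (h1 x hx)) (inv_mem_of_unit (K.sub_mem h2 (h1 u h2)) hw)
      refine ⟨⟨x - (x - s x) * w * u, ?_⟩, K.sub_mem hx (K.mul_mem h3 h2), ⟨(x - s x) * w, ?_⟩, h3,
        (sub_add_cancel _ _).symm⟩ <;> change s _ = _ <;>
        simp only [map_sub, map_mul, hs, hw', RingHom.id_apply]
      · linear_combination (x - s x) * hw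
      · ring
    · rw [map_mul, show s b.1 = b.1 from b.2] at hb
      linear_combination (-u * w) * hb - b.1 * u * hw
  have key : ∀ K : Subring C, (∀ x ∈ K, s x ∈ K) → u ∈ K → K₁ ⊔ K = ⊤ →
      K₁.comap F.subtype ⊔ K.comap F.subtype = ⊤ := fun K h1 h2 e => by
    set L := K₁.comap F.subtype ⊔ K.comap F.subtype
    have hT : (⟨u + s u, show s _ = _ by rw [map_add, hs, add_comm]; rfl⟩ : F) ∈ L :=
      (le_sup_right : _ ≤ L) (K.add_mem h2 (h1 u h2))
    have hN : (⟨u * s u, show s _ = _ by rw [map_mul, hs, mul_comm]; rfl⟩ : F) ∈ L :=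
      (le_sup_right : _ ≤ L) (K.mul_mem h2 (h1 u h2))
    let M : Subring C :=
      { carrier := {x | ∃ a ∈ L, ∃ b ∈ L, x = a.1 + b.1 * u}
        mul_mem' := by
          rintro _ _ ⟨a, ha, b, hb, rfl⟩ ⟨c, hc, d, hd, rfl⟩
          refine ⟨_, L.sub_mem (L.mul_mem ha hc) (L.mul_mem (L.mul_mem hb hd) hN), _, L.add_mem
            (L.add_mem (L.mul_mem ha hd) (L.mul_mem hb hc)) (L.mul_mem (L.mul_mem hb hd) hT), ?_⟩
          push_cast
          ring
        one_mem' := ⟨1, one_mem _, 0, zero_mem _, by simp⟩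
        add_mem' := by
          rintro _ _ ⟨a, ha, b, hb, rfl⟩ ⟨c, hc, d, hd, rfl⟩
          exact ⟨_, L.add_mem ha hc, _, L.add_mem hb hd, by push_cast; ring⟩
        zero_mem' := ⟨0, zero_mem _, 0, zero_mem _, by simp⟩
        neg_mem' := by
          rintro _ ⟨a, ha, b, hb, rfl⟩
          exact ⟨_, L.neg_mem ha, _, L.neg_mem hb, by push_cast; ring⟩ }
    have hM : K₁ ⊔ K ≤ M := sup_le (fun x hx =>
      let ⟨a, ha, b, hb, e⟩ := dec K₁ s₁ (h hu) x hx
      ⟨a, (le_sup_left : _ ≤ L) ha, b, (le_sup_left : _ ≤ L) hb, e⟩) fun x hx =>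
      let ⟨a, ha, b, hb, e⟩ := dec K h1 h2 x hx
      ⟨a, (le_sup_right : _ ≤ L) ha, b, (le_sup_right : _ ≤ L) hb, e⟩
    refine top_le_iff.1 fun x _ => ?_
    obtain ⟨a, ha, b, -, e'⟩ := hM (e.ge (Subring.mem_top x.1))
    have h3 := uniq b (by
      rw [← sub_eq_iff_eq_add'.2 e', map_sub, show s x.1 = x.1 from x.2, show s a.1 = a.1 from a.2])
    rwa [show x = a from Subtype.ext (by rw [e', h3, add_zero])]
  have h4 := field_distrib (key K₂ s₂ hu.1 h₂) (key K₃ s₃ hu.2 h₃) fun x hx => h hx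
  refine top_le_iff.1 fun x _ => ?_
  obtain ⟨a, -, b, -, rfl⟩ := dec ⊤ (fun _ _ => trivial) trivial x trivial
  exact K₁.add_mem (h4.ge (Subring.mem_top a)) (K₁.mul_mem (h4.ge (Subring.mem_top b)) (h hu))

end Vale.Agent.P183W5
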