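import Vale.Agent.P183W5.Cx
import Vale.Agent.P183W5.Fld
import Vale.Agent.P183CF.RealEx

/-!
The width step that removes subfield subgroups and extra quadratic forms.
-/

set_option linter.unusedSectionVars false

namespace Vale.Agent.P183W5

open Subgroup Vale.Agent.P183A Vale.Agent.P183NK Vale.Agent.P183NK.FS Vale.Agent.P183CF Module

/-- A simple ring that spans `A` over the scalars has the degree of `A`. -/
def DEGS : Prop := AllFS fun _ _ _ _ _ S => ∀ (Z J : S.NR) (n : ℕ), S.Scal Z 1 → S.Rank Z 1 n →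
  S.Simp J 1 → S.ctr J 1 ≤ Z → J ⊔ Z = S.cent Z 1 → S.Deg J 1 n

variable {p : ℕ} [Fact p.Prime] {V : Type} [AddCommGroup V] [Module (ZMod p) V] [Finite V]
  {S : FS p V} {Z J : S.NR} {n m k : ℕ} {H a b y u : Subgroup S.Eˣ}

theorem scal_distrib (hZ : S.Scal Z 1) {R : Fin 3 → S.NR} (h1 : ∀ i, (1 : S.E) ∈ R i)
    (hs : ∀ i, ∀ x ∈ R i, S.st x ∈ R i)
    (hu : (∀ z ∈ Z, S.st z = z) ∨ ∃ u ∈ Z, u ∈ R 1 ⊓ R 2 ∧ S.st u ≠ u)
    (h₂ : Z ≤ R 0 ⊓ Z ⊔ R 1 ⊓ Z) (h₃ : Z ≤ R 0 ⊓ Z ⊔ R 2 ⊓ Z) (h : R 1 ⊓ R 2 ≤ R 0) : Z ≤ R 0 := by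
  let C := Z.toSubring hZ.mem
  let _ : CommRing C := { (inferInstance : Ring C) with
    mul_comm := fun x y => Subtype.ext (hZ.comm _ x.2 _ y.2) }
  have : Nontrivial C := ⟨1, 0, fun e => hZ.ne (congrArg Subtype.val e)⟩
  let s : C →+* C :=
    { toFun := fun x => ⟨S.st x.1, hZ.star _ x.2⟩
      map_one' := Subtype.ext S.st_one
      map_mul' := fun x y => Subtype.ext ((S.st_mul _ _).trans
        (hZ.comm _ (hZ.star _ y.2) _ (hZ.star _ x.2)))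
      map_zero' := Subtype.ext S.st_zero
      map_add' := fun x y => Subtype.ext (S.st_add _ _) }
  let K : Fin 3 → Subring C := fun i => ((R i).toSubring (h1 i)).comap C.subtype
  have key : ∀ i, Z ≤ R 0 ⊓ Z ⊔ R i ⊓ Z → K 0 ⊔ K i = ⊤ := fun i e => top_le_iff.1 fun x _ => by
    have : R 0 ⊓ Z ⊔ R i ⊓ Z ≤ ((K 0 ⊔ K i).map C.subtype).toNonUnitalSubring :=
      sup_le (fun y hy => ⟨⟨y, hy.2⟩, (le_sup_left : K 0 ≤ _) hy.1, rfl⟩)
        fun y hy => ⟨⟨y, hy.2⟩, (le_sup_right : K i ≤ _) hy.1, rfl⟩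
    obtain ⟨y, hy, e⟩ := this (e x.2)
    rwa [← show y = x from Subtype.ext e]
  exact fun z hz => (star_distrib s (fun x => Subtype.ext (S.st_st _)) (fun x hx h0 => by
      obtain ⟨y, hy, e⟩ := hZ.inv x.1 x.2 (congrArg Subtype.val hx) fun e => h0 (Subtype.ext e)
      exact IsUnit.of_mul_eq_one ⟨y, hy⟩ (Subtype.ext e))
    (fun x hx => Subtype.ext (hZ.red _ x.2 (congrArg Subtype.val hx)))
    (fun x => hs 0 x.1) (fun x => hs 1 x.1) (fun x => hs 2 x.1)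
    (hu.imp (fun e x => Subtype.ext (e _ x.2)) fun ⟨u, h4, h5, h6⟩ =>
      ⟨⟨u, h4⟩, h5, fun e => h6 (congrArg Subtype.val e)⟩) (key 1 h₂) (key 2 h₃)
    fun _ hx => h hx).ge (Subring.mem_top ⟨z, hz⟩)

/-- The symplectic group preserves no quadratic form. -/
theorem noq (hZ : S.Scal Z 1) (hn : S.Rank Z 1 n) (hd : 11 ≤ n) (ho : ¬ S.orth)
    (hs : ∀ z ∈ Z, S.st z = z) (q : V → ZMod p) (hq : ∀ x y, q (x + y) = q x + q y + S.β x y) :
    ∃ g ∈ S.om (S.cent Z 1), ∃ v, q (g.1 v) ≠ q v := by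
  by_contra c
  push Not at c
  obtain ⟨F, _, _, _, φ, τ, h⟩ := exists_real hZ fun x hx h0 => hZ.inv x hx (hs x hx) h0
  have := hZ.toLoc.nontrivial
  have := Real.fd (F := F) (V := V)
  rw [← h.rank_iff.1 hn] at hd
  have hσ := h.σ_eq_iff.2 hs
  have hε := (h.qa ho).1
  have hQ : ∀ t, φ.md t = 0 := fun t => φ.md_eq_zero.2 (h.Λ_top ho hσ t)
  have key : ∀ u ≠ 0, ∀ t ≠ 0, q u = τ t := fun u hu t ht => by
    obtain ⟨x, hx⟩ : ∃ x, φ.b u x = t := by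
      obtain ⟨x, hx⟩ := not_forall.1 fun e => hu (φ.nondeg u e)
      exact ⟨(t / φ.b u x) • x, by rw [map_smul, smul_eq_mul, div_mul_cancel₀ _ hx]⟩
    have r : φ.RD u 0 t⁻¹ := ⟨hQ _, map_zero _, (hQ _).trans (hQ _).symm⟩
    have e := c _ (h.EW_le_om hd (Form.rho_EW r trivial trivial)) x
    rw [upU_apply, Form.rho_apply, hx, hε, map_zero, LinearMap.zero_apply, inv_mul_cancel₀ ht,
      smul_zero, add_zero, zero_add, mul_one, neg_one_smul, sub_neg_eq_add, hq, h.β, φ.herm, hx,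
      hε, hσ, neg_one_mul, map_neg] at e
    linear_combination e
  obtain ⟨u, hu⟩ := exists_ne (0 : V)
  obtain ⟨w, h1, h2⟩ := SetLike.not_le_iff_exists.1 fun e : LinearMap.ker (φ.b u) ≤ F ∙ u => by
    have h3 := (Submodule.finrank_mono e).trans (finrank_span1 u)
    have h4 := LinearMap.finrank_range_add_finrank_ker (φ.b u)
    have h5 := (LinearMap.range (φ.b u)).finrank_le
    rw [finrank_self] at h5
    omega
  have e := hq u w
  rw [key u hu 1 one_ne_zero, key w (fun e => h2 (e ▸ zero_mem _)) 1 one_ne_zero,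
    key (u + w) (fun e => h2 (eq_neg_of_add_eq_zero_right e ▸
      neg_mem (Submodule.mem_span_singleton_self u))) 1 one_ne_zero, h.β, show φ.b u w = 0 from h1, map_zero] at e
  refine h.τne (AddMonoidHom.ext fun t => ?_)
  by_cases ht : t = 0
  · simp [ht]
  · rw [← key u hu t ht, key u hu 1 one_ne_zero, AddMonoidHom.zero_apply]
    linear_combination -e

namespace Cx

variable (c : Cx S Z n H a b)
include c

theorem dec (h1 : S.spanR (EE H a) ≤ J) (h2 : J ≤ S.cent Z 1) (hn : S.NmR a J) :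
    J ≤ J ⊓ Z ⊔ S.spanR (EE H a) := fun _ hx =>
  (c.id h2 (h1 (one_mem_spanR _)) hn).tc1 (sup_le inf_le_left h1) (msr (one_mem_spanR _))
    c.scal.mem (c.cmZ h2) (fun _ hz hc => msl ⟨hz, c.mem_Z (h2 hz) (hc.mono h1)⟩)
    ((c.A_le.trans (sup_le_sup_left le_sup_right _)) (h2 hx)) hx

theorem sup_Z (h1 : a ≤ y) (h2 : a ≤ u) (e : y ⊔ u = b) :
    Z ≤ S.spanR (EE H y) ⊓ Z ⊔ S.spanR (EE H u) ⊓ Z := fun z hz => by
  have hd : ∀ {y}, a ≤ y → y ≤ b → S.spanR (EE H y) ≤ S.spanR (EE H y) ⊓ Z ⊔ S.spanR (EE H a) :=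
    fun h1 h2 => c.dec (spanR_mono (c.E_mono h1 h2)) (c.up h1 h2).R_le ((c.up h1 h2).R_nm.mono h1)
  have hy := le_sup_left.trans e.le
  have hK : S.spanR (EE H y) ⊓ Z ⊔ S.spanR (EE H u) ⊓ Z ≤ Z := sup_le inf_le_right inf_le_right
  refine (c.id c.R_le (one_mem_spanR _) c.R_nm).tc2 (one_mem_spanR _)
    (fun k hk => c.cmZ c.R_le k (hK hk)) (fun w hw hc => msl (NonUnitalSubring.mem_inf.2
      ⟨spanR_mono (c.E_mono h1 hy) hw, c.mem_Z (c.R_le hw) hc⟩)) ?_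
    (c.cmZ c.R_le z hz)
  have := c.R_top.ge (c.scal.le_cent hz)
  rw [c.E_sup h1 h2 e] at this
  exact (sup_le ((hd h1 hy).trans (sup_le_sup_right le_sup_left _))
    ((hd h2 (le_sup_right.trans e.le)).trans (sup_le_sup_right le_sup_right _))) (spanR_sup _ _ this)

theorem inf_R {c₂ : ℕ} (hN : N2 c₂) (hD : DEGS) (hc : c₂ ≤ n) {col : _ → Fin m} {z : Fin m → _}
    (hA : Arms m k a b col z) {i j : Fin m} (hij : i ≠ j)
    (hi : S.spanR (EE H (z i)) ≠ S.cent Z 1) (hj : S.spanR (EE H (z j)) ≠ S.cent Z 1) :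
    S.spanR (EE H (z i)) ⊓ S.spanR (EE H (z j)) ≤ S.spanR (EE H a) := by
  have ci := fun i => c.up (hA.lt_z i).le (hA.z_lt i).le
  have hR : ∀ i, S.spanR (EE H a) ≤ S.spanR (EE H (z i)) := fun i =>
    spanR_mono (c.E_mono (hA.lt_z i).le (hA.z_lt i).le)
  set J := S.spanR (EE H (z i)) ⊓ S.spanR (EE H (z j))
  have h1 : S.spanR (EE H a) ≤ J := le_inf (hR i) (hR j)
  have h2 : J ≤ S.cent Z 1 := inf_le_left.trans (ci i).R_le
  have h3 := h1 (one_mem_spanR _)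
  have hz : ∀ e ∈ J, Cm1 J e → e ∈ Z := fun e he hc => c.mem_Z (h2 he) (hc.mono h1)
  have h4 : S.Simp J 1 := simp_of (c.id h2 h3 (((ci i).R_nm.mono (hA.lt_z i).le).inf
    ((ci j).R_nm.mono (hA.lt_z j).le))) ⟨h3, c.scal.ne, S.st_one, fun _ _ => one_mul _,
      fun _ _ => mul_one _, fun x hx => ⟨(ci i).R_st x hx.1, (ci j).R_st x hx.2⟩⟩
    fun e he hc => c.scal.sym_idem (hz e he hc)
  have h5 : S.ctr J 1 ≤ Z := fun e he => hz e he.1 he.2.2.2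
  have h6 : ∀ l, S.spanR (EE H (z l)) ≠ S.cent Z 1 → J ≤ S.spanR (EE H (z l)) →
      S.om J ≤ b ⊓ nR (S.spanR (EE H (z l))) ∧ z l ≤ b ⊓ nR (S.spanR (EE H (z l))) ∧
        b ⊓ nR (S.spanR (EE H (z l))) < b := fun l h7 h8 =>
    ⟨le_inf ((om_mono h2).trans c.omb) ((nmR_sca (one_mem_spanR _)).mono (((om_mono h8).trans
      (om_le_iso _)).trans (iso_le_sca (one_mem_spanR _)))).le_nR,
      le_inf (hA.z_lt l).le (ci l).R_nm.le_nR, c.stab (ci l).R_le (ci l).R_st (ci l).R_nle h7⟩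
  obtain ⟨i1, i2, i3⟩ := h6 i hi inf_le_left
  obtain ⟨j1, j2, j3⟩ := h6 j hj inf_le_right
  refine ((hN p V S J 1 n h4 (fun v _ h => c.fix' v fun g hg => h g (mem_iso.2
    ⟨sub_mem (h1 (val_mem_spanR hg)) h3, (mem_iso.1 (c.E_iso hg)).2⟩))
    (hD p V S Z J n c.scal c.rank h4 h5 (le_antisymm (sup_le h2 c.scal.le_cent) (c.A_le.trans
      (sup_le le_sup_right (h1.trans le_sup_left))))) hc _ h1 c.R_st
    (c.R_nm.mono ((le_inf i1 j1).trans (hA.inf_eq hij i2 i3 j2 j3).le))).resolve_left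
      fun e => c.R_nle (e.trans h5)).ge

end Cx

/-- The step `W4`. -/
theorem w4 {c₂ c₃ : ℕ} (hN : N2 c₂) (hB : BAS c₃) (hD : DEGS) : W4 := by
  refine ⟨c₂ + c₃ + 11, 3, 3, fun p _ V _ _ _ S Z n H a b m k hL hn hm hH hg hP => ?_⟩
  have c : Cx S Z n H a b := ⟨hL, hH, hg.lt.le, hP.1, hP.2,
    top_inv hN hB hL.scal hL.rank (by omega) (by omega)⟩
  obtain ⟨a₁, l₁, g₁, q₁⟩ := Good.raise_one (k := k + 2) (by omega) hg (fun y =>
    (∀ z ∈ Z, S.st z = z) ∨ ∃ u ∈ Z, u ∈ S.spanR (EE H y) ∧ S.st u ≠ u) fun _ z hA i j hi hj => by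
      by_contra e
      push Not at hi hj
      obtain ⟨w, hw, h1⟩ := hi.1
      have hs : ∀ l, (∀ u ∈ Z, u ∈ S.spanR (EE H (z l)) → S.st u = u) →
          S.spanR (EE H (z l)) ⊓ Z ≤ S.sym Z := fun l h u hu => c.scal.mem_sym.2 ⟨hu.2, h u hu.2 hu.1⟩
      exact h1 (sup_le (hs i hi.2) (hs j hj.2) (c.sup_Z (hA.lt_z i).le (hA.lt_z j).le
        (hA.sup_eq e le_rfl (hA.z_lt i) le_rfl (hA.z_lt j)) hw)).2.1
  have c₁ := c.up l₁.le g₁.lt.le
  obtain ⟨a₂, l₂, g₂, q₂⟩ := Good.raise (k := k + 1) (r := 2) (by omega) g₁ (fun y =>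
    S.spanR (EE H y) = S.cent Z 1) fun _ z hA => card_le_two_of fun i j l hi hj hl e1 e2 e3 => by
      have ci := fun i => c₁.up (hA.lt_z i).le (hA.z_lt i).le
      have hR : ∀ i, S.spanR (EE H a₁) ≤ S.spanR (EE H (z i)) := fun i =>
        spanR_mono (c₁.E_mono (hA.lt_z i).le (hA.z_lt i).le)
      have hS := fun i j (e : i ≠ j) => c₁.sup_Z (hA.lt_z i).le (hA.lt_z j).le
        (hA.sup_eq e le_rfl (hA.z_lt i) le_rfl (hA.z_lt j))
      refine hi (le_antisymm (ci i).R_le ((ci i).A_le.trans (sup_le ?_ le_rfl)))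
      exact scal_distrib c.scal (R := fun t => S.spanR (EE H (z (![i, j, l] t))))
        (fun _ => one_mem_spanR _) (fun _ => (ci _).R_st)
        (q₁.imp_right fun ⟨u, h1, h2, h3⟩ => ⟨u, h1, ⟨hR _ h2, hR _ h2⟩, h3⟩) (hS i j e1) (hS i l e2)
        ((c₁.inf_R hN hD (by omega) hA e3 hj hl).trans (hR i))
  have c₂ := c₁.up l₂.le g₂.lt.le
  obtain ⟨a₃, l₃, g₃, q₃⟩ := Good.raise_one (by omega) g₂ (fun y => ¬ S.orth →
    (∀ z ∈ Z, S.st z = z) → ∀ q' : V → ZMod p, (∀ x y, q' (x + y) = q' x + q' y + S.β x y) →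
      ∃ g ∈ EE H y, ∃ v, q' (g.1 v) ≠ q' v) fun _ z hA i j hi hj => by
      by_contra e
      push Not at hi hj
      obtain ⟨ho, hs, q, h1, h2⟩ := hi
      obtain ⟨-, -, q', h3, h4⟩ := hj
      have hE := fun i => c₂.E_mono (hA.lt_z i).le (hA.z_lt i).le
      obtain rfl : q = q' := q_unique (S := S) (X := {x | ∃ g ∈ EE H a₂, x = g.1})
        (by rintro _ ⟨g, hg, rfl⟩; exact iso_uni (c₂.E_iso hg))
        (fun v h => c₂.fix' v fun g hg => h _ ⟨g, hg, rfl⟩) h1 h3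
        (by rintro _ ⟨g, hg, rfl⟩; exact h2 g (hE i hg))
        (by rintro _ ⟨g, hg, rfl⟩; exact h4 g (hE j hg))
      obtain ⟨g, hg, v, hv⟩ := noq c.scal c.rank (by omega) ho hs q h1
      rw [← c.top, c₂.E_sup (hA.lt_z i).le (hA.lt_z j).le
        (hA.sup_eq e le_rfl (hA.z_lt i) le_rfl (hA.z_lt j))] at hg
      let Q : Subgroup S.Eˣ :=
        { carrier := {g | ∀ v, q (g.1 v) = q v}
          one_mem' := fun _ => rfl
          mul_mem' := fun h h' v => (h _).trans (h' v)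
          inv_mem' := fun {g} h v => by rw [← h, u_app_inv] }
      exact hv ((sup_le h2 h4 : _ ≤ Q) hg v)
  have c₃ := c₂.up l₃.le g₃.lt.le
  exact ⟨a₃, (l₁.trans (l₂.trans l₃)).le, g₃, le_antisymm c₃.R_le
    (q₂.ge.trans (spanR_mono (c₂.E_mono l₃.le g₃.lt.le))), q₃⟩

end Vale.Agent.P183W5
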