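import Vale.Agent.P183W5.W5
import Vale.Agent.P183W3.Glue

/-!
The classical block from the final step in one characteristic.
-/

namespace Vale.Agent.P183W5

open Vale.Agent.P183NK Vale.Agent.P183W3

theorem w5' : W5 := w5 w5d' P183NK.flip n1 n2 bas

theorem blockCl_of_same' (hs : SameChar) : BlockCl := blockCl_of_same w5' hs

theorem main_of_same' (hs : SameChar) :
    ∃ d : ℕ, ∀ c : ℕ, ∃ (L : Type) (_ : Lattice L) (_ : BoundedOrder L) (_ : Finite L),
      P183A.NoMod (⊥ : L) ⊤ ∧ ¬ GIK (fun S _ => Known d c S) L := main_of_same w5' hs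

end Vale.Agent.P183W5
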