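import Vale.Agent.P183NK.CSI

/-!
Interface between the steps of the almost simplicity theorem for classical tops.
-/

namespace Vale.Agent.P183W5

open Vale.Agent.P183NK

variable {p : ℕ} [Fact p.Prime] {V : Type} [AddCommGroup V] [Module (ZMod p) V]

/-- An orthogonal decomposition of `1` into nonzero symmetric idempotents of `A = End_Z V`. -/
structure Dec (S : FS p V) (Z : S.NR) (D : Finset S.E) : Prop where
  mem : ∀ e ∈ D, e ∈ S.cent Z 1
  ne : ∀ e ∈ D, e ≠ 0
  symm : ∀ e ∈ D, S.st e = e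
  idem : ∀ e ∈ D, e * e = e
  orth : ∀ e ∈ D, ∀ f ∈ D, e ≠ f → e * f = 0
  sum : ∑ e ∈ D, e = 1

/-- The group `a` permutes no orthogonal decomposition with at least two blocks. -/
def DnPure (S : FS p V) (Z : S.NR) (a : Subgroup S.Eˣ) : Prop :=
  ∀ D : Finset S.E, Dec S Z D → (∀ g ∈ a, ∀ e ∈ D, g.1 * e * g⁻¹.1 ∈ D) → D.card ≤ 1

/-- The step that removes invariant orthogonal decompositions. -/
def W5D : Prop := LStep (fun _ _ _ _ _ S Z H a => S.Irr Z a ∧ S.Ful Z (EE H a))
  fun _ _ _ _ _ S Z _ a => DnPure S Z a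

/-- A simple ring with involution has a degree over its centre. -/
def DEG : Prop := AllFS fun _ _ _ _ _ S => ∀ (J : S.NR) (e : S.E), S.Simp J e → ∃ m, S.Deg J e m

end Vale.Agent.P183W5
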