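import Mathlib.RingTheory.SimpleModule.WedderburnArtin
import Mathlib.RingTheory.NonUnitalSubring.Basic
import Mathlib.Algebra.Algebra.Bilinear
import Mathlib.Tactic.NoncommRing

/-!
Subrings all of whose ideals have an identity: bimodule projections, tensor lemmas and the
Skolem-Noether theorem.
-/

namespace Vale.Agent.P183W5

variable {E : Type} [Ring E] {J K : NonUnitalSubring E}

/-- `c` commutes with `J`. -/
def Cm1 (J : NonUnitalSubring E) (c : E) : Prop := ∀ d ∈ J, c * d = d * c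

/-- Every two-sided ideal of `J` has an identity element. -/
def ID (J : NonUnitalSubring E) : Prop :=
  ∀ L : AddSubgroup E, (∀ x ∈ L, x ∈ J) → (∀ r ∈ J, ∀ x ∈ L, r * x ∈ L ∧ x * r ∈ L) →
    ∃ e ∈ L, ∀ x ∈ L, e * x = x ∧ x * e = x

theorem ID.ex (h : ID J) (L : AddSubgroup E) (h1 : ∀ x ∈ L, x ∈ J)
    (h2 : ∀ r ∈ J, ∀ x ∈ L, r * x ∈ L ∧ x * r ∈ L) :
    ∃ e ∈ L, e * e = e ∧ Cm1 J e ∧ ∀ x ∈ L, e * x = x ∧ x * e = x := by
  obtain ⟨e, he, h3⟩ := h L h1 h2
  refine ⟨e, he, (h3 e he).1, fun d hd => ?_, h3⟩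
  rw [← (h3 _ (h2 d hd e he).2).2, ← (h3 _ (h2 d hd e he).1).1, mul_assoc]

/-- Induction principle for the ring generated by two commuting unital subrings. -/
theorem sup_ind (h1 : (1 : E) ∈ K) (h2 : (1 : E) ∈ J) (hc : ∀ k ∈ K, Cm1 J k) (P : AddSubgroup E)
    (hP : ∀ k ∈ K, ∀ r ∈ J, k * r ∈ P) {x : E} (hx : x ∈ K ⊔ J) : x ∈ P := by
  let s : Set E := {y | ∃ k ∈ K, ∃ r ∈ J, y = k * r}
  let Q : NonUnitalSubring E :=
    { toAddSubgroup := AddSubgroup.closure s
      mul_mem' := fun {a b} ha hb => by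
        change a ∈ AddSubgroup.closure s at ha
        change b ∈ AddSubgroup.closure s at hb
        change a * b ∈ AddSubgroup.closure s
        induction ha using AddSubgroup.closure_induction with
        | mem a ha =>
          induction hb using AddSubgroup.closure_induction with
          | mem b hb =>
            obtain ⟨k, hk, r, hr, rfl⟩ := ha
            obtain ⟨k', hk', r', hr', rfl⟩ := hb
            refine AddSubgroup.subset_closure ⟨k * k', mul_mem hk hk', r * r', mul_mem hr hr', ?_⟩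
            rw [mul_assoc, ← mul_assoc r, ← hc k' hk' r hr, mul_assoc, mul_assoc]
          | zero => simp
          | add x y _ _ hx hy => rw [mul_add]; exact add_mem hx hy
          | neg x _ hx => rw [mul_neg]; exact neg_mem hx
        | zero => simp
        | add x y _ _ hx hy => rw [add_mul]; exact add_mem hx hy
        | neg x _ hx => rw [neg_mul]; exact neg_mem hx }
  have : K ⊔ J ≤ Q := sup_le
    (fun k hk => AddSubgroup.subset_closure (k := s) ⟨k, hk, 1, h2, (mul_one k).symm⟩)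
    fun r hr => AddSubgroup.subset_closure (k := s) ⟨1, h1, r, hr, (one_mul r).symm⟩
  refine (AddSubgroup.closure_le P).2 ?_ (show x ∈ AddSubgroup.closure s from this hx)
  rintro _ ⟨k, hk, r, hr, rfl⟩
  exact hP k hk r hr

/-- The ring generated by the left and right multiplications with elements of `J`. -/
def BB (J : NonUnitalSubring E) : Subring (Module.End ℤ E) :=
  Subring.closure {b | ∃ r ∈ J, b = LinearMap.mulLeft ℤ r ∨ b = LinearMap.mulRight ℤ r}

theorem bb_mem {N : AddSubgroup E} (h : ∀ r ∈ J, ∀ x ∈ N, r * x ∈ N ∧ x * r ∈ N)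
    {b : Module.End ℤ E} (hb : b ∈ BB J) : ∀ x ∈ N, b x ∈ N := by
  induction hb using Subring.closure_induction with
  | mem b hb =>
    obtain ⟨r, hr, rfl | rfl⟩ := hb
    exacts [fun x hx => (h r hr x hx).1, fun x hx => (h r hr x hx).2]
  | zero => exact fun x _ => N.zero_mem
  | one => exact fun x hx => hx
  | add a b _ _ ha hb => exact fun x hx => N.add_mem (ha x hx) (hb x hx)
  | neg a _ ha => exact fun x hx => N.neg_mem (ha x hx)
  | mul a b _ _ ha hb => exact fun x hx => ha _ (hb x hx)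

theorem bb_cm {b : Module.End ℤ E} (hb : b ∈ BB J) {c : E} (hc : Cm1 J c) :
    ∀ x, b (c * x) = c * b x := by
  induction hb using Subring.closure_induction with
  | mem b hb =>
    obtain ⟨r, hr, rfl | rfl⟩ := hb
    · intro x
      simp only [LinearMap.mulLeft_apply, ← mul_assoc, hc r hr]
    · intro x
      simp only [LinearMap.mulRight_apply, mul_assoc]
  | zero => simp
  | one => simp
  | add a b _ _ ha hb => intro x; simp [ha, hb, mul_add]
  | neg a _ ha => intro x; simp [ha]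
  | mul a b _ _ ha hb => intro x; simp [ha, hb]

/-- A sub-bimodule. -/
def bim (N : AddSubgroup E) (h : ∀ r ∈ J, ∀ x ∈ N, r * x ∈ N ∧ x * r ∈ N) :
    Submodule (BB J) E :=
  { N with smul_mem' := fun b _ hx => bb_mem h b.2 _ hx }

theorem self_bim : ∀ r ∈ J, ∀ x ∈ J.toAddSubgroup, r * x ∈ J.toAddSubgroup ∧
    x * r ∈ J.toAddSubgroup := fun _ hr _ hx => ⟨J.mul_mem hr hx, J.mul_mem hx hr⟩

theorem left_bb {r : E} (hr : r ∈ J) : LinearMap.mulLeft ℤ r ∈ BB J :=
  Subring.subset_closure ⟨r, hr, Or.inl rfl⟩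

theorem right_bb {r : E} (hr : r ∈ J) : LinearMap.mulRight ℤ r ∈ BB J :=
  Subring.subset_closure ⟨r, hr, Or.inr rfl⟩

theorem sub_bim (P : Submodule (BB J) E) : ∀ r ∈ J, ∀ x ∈ P.toAddSubgroup,
    r * x ∈ P.toAddSubgroup ∧ x * r ∈ P.toAddSubgroup := fun _ hr _ hx =>
  ⟨P.smul_mem ⟨_, left_bb hr⟩ hx, P.smul_mem ⟨_, right_bb hr⟩ hx⟩

theorem ID.semisimple (h : ID J) : IsSemisimpleModule (BB J) (bim J.toAddSubgroup self_bim) := by
  set N := bim J.toAddSubgroup (self_bim (J := J))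
  refine (isSemisimpleModule_iff _ _).2 ⟨fun P => ?_⟩
  obtain ⟨e, he, -, h2, h3⟩ := h.ex (P.map N.subtype).toAddSubgroup
    (by rintro _ ⟨x, -, rfl⟩; exact x.2) (sub_bim _)
  obtain ⟨e, heP, rfl⟩ := he
  let Q : Submodule (BB J) N :=
    { carrier := {x | e.1 * x.1 = 0}
      add_mem' := fun {a b} ha hb => by
        change e.1 * (a.1 + b.1) = 0
        rw [mul_add, ha, hb, add_zero]
      zero_mem' := mul_zero _
      smul_mem' := fun b x hx => by
        change N.subtype e * b.1 x.1 = 0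
        rw [← bb_cm b.2 h2, show N.subtype e * x.1 = 0 from hx, map_zero] }
  refine ⟨Q, disjoint_iff.2 (le_bot_iff.1 fun x hx => Subtype.ext ?_),
    codisjoint_iff.2 (top_le_iff.1 fun x _ => ?_)⟩
  · exact ((h3 x.1 ⟨x, hx.1, rfl⟩).1.symm.trans hx.2)
  · let y : N := (⟨_, right_bb x.2⟩ : BB J) • e
    have hy : y ∈ P := P.smul_mem _ heP
    rw [← add_sub_cancel y x]
    refine Submodule.add_mem_sup hy ?_
    change e.1 * (x.1 - y.1) = 0
    rw [mul_sub, show e.1 * y.1 = y.1 from (h3 _ ⟨y, hy, rfl⟩).1]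
    exact sub_self _

theorem proj_aux {B M : Type} [Ring B] [AddCommGroup M] [Module B M] [Finite M]
    [IsSemisimpleModule B M] (P : AddSubgroup M) (hP : ∀ d : Module.End B M, ∀ x ∈ P, d x ∈ P) :
    ∃ b : B, (∀ x, b • x ∈ P) ∧ ∀ x ∈ P, b • x = x := by
  have : IsSemisimpleRing (Module.End B M) := IsSemisimpleRing.moduleEnd _ _
  let Q : Submodule (Module.End B M) M := { P with smul_mem' := fun d x hx => hP d x hx }
  obtain ⟨Q', hQ⟩ := exists_isCompl Q
  have := Fintype.ofFinite M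
  obtain ⟨b, hb⟩ := jacobson_density (R := B) (Q.projection Q' hQ) Finset.univ
  refine ⟨b, fun x => ?_, fun x hx => ?_⟩
  · rw [← hb _ (Finset.mem_univ _)]
    exact Submodule.projection_apply_mem hQ x
  · rw [← hb _ (Finset.mem_univ _)]
    exact Submodule.projection_apply_left hQ ⟨x, hx⟩

variable [Finite E]

/-- Projections onto submodules over the centre are given by multiplications. -/
theorem ID.proj (h : ID J) (h1 : (1 : E) ∈ J) (P : AddSubgroup E) (hP : ∀ x ∈ P, x ∈ J)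
    (hz : ∀ z ∈ J, Cm1 J z → ∀ x ∈ P, z * x ∈ P) :
    ∃ b ∈ BB J, (∀ x ∈ J, b x ∈ P) ∧ ∀ x ∈ P, b x = x := by
  have := h.semisimple
  set N := bim J.toAddSubgroup (self_bim (J := J))
  have hd : ∀ (d : Module.End (BB J) N) (x : N), (d x).1 = (d ⟨1, h1⟩).1 * x.1 ∧
      (d x).1 = x.1 * (d ⟨1, h1⟩).1 := fun d x => by
    have e1 : x = (⟨_, right_bb x.2⟩ : BB J) • (⟨1, h1⟩ : N) := Subtype.ext (one_mul _).symm
    have e2 : x = (⟨_, left_bb x.2⟩ : BB J) • (⟨1, h1⟩ : N) := Subtype.ext (mul_one _).symm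
    constructor
    · conv_lhs => rw [e1, map_smul]
      rfl
    · conv_lhs => rw [e2, map_smul]
      rfl
  obtain ⟨b, h2, h3⟩ := proj_aux (B := BB J) (P.comap N.subtype.toAddMonoidHom) fun d x hx => by
    change (d x).1 ∈ P
    rw [(hd d x).1]
    exact hz _ (d ⟨1, h1⟩).2 (fun r hr => (hd d ⟨r, hr⟩).1.symm.trans (hd d ⟨r, hr⟩).2) _ hx
  exact ⟨b.1, b.2, fun x hx => h2 ⟨x, hx⟩,
    fun x hx => congrArg Subtype.val (h3 ⟨x, hP x hx⟩ hx)⟩

/-- The centraliser of `J` in the ring generated by `J` and `K` is `K`. -/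
theorem ID.tc2 (h : ID J) (h1 : (1 : E) ∈ J) (hK : ∀ k ∈ K, Cm1 J k)
    (hz : ∀ z ∈ J, Cm1 J z → z ∈ K) {x : E} (hx : x ∈ K ⊔ J) (hc : Cm1 J x) : x ∈ K := by
  have h1c : Cm1 J 1 := fun d _ => by simp
  obtain ⟨b, hb, h2, h3⟩ := h.proj h1
    { carrier := {z | z ∈ J ∧ Cm1 J z}
      add_mem' := fun {a b} ha hb => ⟨add_mem ha.1 hb.1, fun d hd => by
        rw [add_mul, mul_add, ha.2 d hd, hb.2 d hd]⟩
      zero_mem' := ⟨zero_mem _, fun d _ => by simp⟩
      neg_mem' := fun {a} ha => ⟨neg_mem ha.1, fun d hd => by rw [neg_mul, mul_neg, ha.2 d hd]⟩ }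
    (fun x hx => hx.1) fun z hz hz' x hx => ⟨mul_mem hz hx.1, fun d hd => by
      rw [mul_assoc, hx.2 d hd, ← mul_assoc, hz' d hd, mul_assoc]⟩
  have h4 := sup_ind (hz 1 h1 h1c) h1 hK (K.toAddSubgroup.comap b.toAddMonoidHom)
    (fun k hk r hr => by
      change b (k * r) ∈ K
      rw [bb_cm hb (hK k hk)]
      exact mul_mem hk (hz _ (h2 r hr).1 (h2 r hr).2)) hx
  change b x ∈ K at h4
  rwa [← mul_one x, bb_cm hb hc, h3 1 ⟨h1, h1c⟩, mul_one] at h4

/-- `J` meets the ring generated by `K` and a subring `R` that contains the centre in `R`. -/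
theorem ID.tc1 (h : ID J) {R : NonUnitalSubring E} (hR : R ≤ J) (h1 : (1 : E) ∈ R)
    (h1K : (1 : E) ∈ K) (hK : ∀ k ∈ K, Cm1 J k) (hz : ∀ z ∈ J, Cm1 J z → z ∈ R) {x : E}
    (hx : x ∈ K ⊔ R) (hJ : x ∈ J) : x ∈ R := by
  obtain ⟨b, hb, h2, h3⟩ := h.proj (hR h1) R.toAddSubgroup (fun x hx => hR hx)
    fun z h4 h5 x hx => R.mul_mem (hz z h4 h5) hx
  have h4 := sup_ind h1K h1 (fun k hk d hd => hK k hk d (hR hd))
    (b.toAddMonoidHom - AddMonoidHom.id E).ker (fun k hk r hr => by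
      change b (k * r) - k * r = 0
      rw [bb_cm hb (hK k hk), h3 r hr, sub_self]) hx
  change b x - x = 0 at h4
  rw [← sub_eq_zero.1 h4]
  exact h2 x hJ

omit [Finite E] in
theorem ID.cen_aux (h : ID J) {N : AddSubgroup E} (hN : ∀ r ∈ J, ∀ x ∈ N, r * x ∈ N ∧ x * r ∈ N)
    (s : Finset E) : (∀ c ∈ s, Cm1 J c) → ∀ r : E → E, (∀ c, r c ∈ J) → ∑ c ∈ s, c * r c ∈ N →
      ∑ c ∈ s, c * r c ≠ 0 → ∃ y ∈ N, y ≠ 0 ∧ Cm1 J y := by
  classical
  induction s using Finset.induction_on with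
  | empty => exact fun _ _ _ _ h0 => absurd rfl h0
  | insert c s hcs ih =>
    intro hs r hr h1 h0
    have hc := hs c (Finset.mem_insert_self _ _)
    have hs' : ∀ d ∈ s, Cm1 J d := fun d hd => hs d (Finset.mem_insert_of_mem hd)
    by_contra hne
    have ih' : ∀ r : E → E, (∀ c, r c ∈ J) → ∑ c ∈ s, c * r c ∈ N → ∑ c ∈ s, c * r c = 0 :=
      fun r hr h2 => by_contra fun h3 => hne (ih hs' r hr h2 h3)
    obtain ⟨e, he, -, h2, h3⟩ := h.ex (Submodule.span (BB J) {r c}).toAddSubgroup (fun x hx => by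
      obtain ⟨b, rfl⟩ := Submodule.mem_span_singleton.1 hx
      exact bb_mem self_bim b.2 _ (hr c)) (sub_bim _)
    obtain ⟨b, rfl⟩ := Submodule.mem_span_singleton.1 he
    have h4 := (h3 _ (Submodule.mem_span_singleton_self (r c))).1
    have hb : ∀ d, b.1 (r d) ∈ J := fun d => bb_mem self_bim b.2 _ (hr d)
    change b.1 (r c) * r c = r c at h4
    change Cm1 J (b.1 (r c)) at h2
    have h5 := bb_mem hN b.2 _ h1
    rw [map_sum, Finset.sum_congr rfl fun d hd => bb_cm b.2 (hs d hd) (r d),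
      Finset.sum_insert hcs] at h5
    have h6 : c * b.1 (r c) + ∑ d ∈ s, d * b.1 (r d) = 0 := by
      by_contra h7
      refine hne ⟨_, h5, h7, fun m hm => ?_⟩
      have e : ∑ d ∈ s, d * (b.1 (r d) * m - m * b.1 (r d)) =
          (c * b.1 (r c) + ∑ d ∈ s, d * b.1 (r d)) * m -
            m * (c * b.1 (r c) + ∑ d ∈ s, d * b.1 (r d)) := by
        rw [add_mul, mul_add, mul_assoc, h2 m hm, ← mul_assoc, hc m hm, mul_assoc,
          add_sub_add_left_eq_sub, Finset.sum_mul, Finset.mul_sum, ← Finset.sum_sub_distrib]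
        refine Finset.sum_congr rfl fun d hd => ?_
        rw [mul_sub, ← mul_assoc, ← mul_assoc, hs' d hd m hm, mul_assoc m]
      have := ih' _ (fun d => sub_mem (mul_mem (hb d) hm) (mul_mem hm (hb d)))
        (e ▸ sub_mem (hN m hm _ h5).2 (hN m hm _ h5).1)
      rwa [e, sub_eq_zero] at this
    have e : ∑ d ∈ s, d * (r d - b.1 (r d) * r c) = ∑ d ∈ insert c s, d * r d := by
      have := congrArg (· * r c) h6
      simp only [add_mul, mul_assoc, h4, Finset.sum_mul, zero_mul] at this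
      rw [Finset.sum_insert hcs, eq_neg_of_add_eq_zero_left this]
      simp only [mul_sub, Finset.sum_sub_distrib]
      abel
    exact h0 (e ▸ ih' _ (fun d => sub_mem (hr d) (mul_mem (hb d) (hr c))) (e ▸ h1))

/-- A nonzero sub-bimodule of the ring generated by `J` and a ring that commutes with `J` contains
a nonzero element that commutes with `J`. -/
theorem ID.cen (h : ID J) (h1 : (1 : E) ∈ J) (h1K : (1 : E) ∈ K) (hK : ∀ k ∈ K, Cm1 J k)
    {N : AddSubgroup E} (hN : ∀ r ∈ J, ∀ x ∈ N, r * x ∈ N ∧ x * r ∈ N) {x : E} (hx : x ∈ N)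
    (h0 : x ≠ 0) (hs : x ∈ K ⊔ J) : ∃ y ∈ N, y ≠ 0 ∧ Cm1 J y := by
  classical
  have := Fintype.ofFinite E
  let s : Finset E := Finset.univ.filter (· ∈ K)
  obtain ⟨r, hr, rfl⟩ := sup_ind h1K h1 hK
    { carrier := {y | ∃ r : E → E, (∀ c, r c ∈ J) ∧ y = ∑ c ∈ s, c * r c}
      add_mem' := by
        rintro _ _ ⟨r, hr, rfl⟩ ⟨r', hr', rfl⟩
        exact ⟨r + r', fun c => add_mem (hr c) (hr' c), by
          simp [mul_add, Finset.sum_add_distrib]⟩
      zero_mem' := ⟨0, fun _ => zero_mem _, by simp⟩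
      neg_mem' := by
        rintro _ ⟨r, hr, rfl⟩
        exact ⟨-r, fun c => neg_mem (hr c), by simp⟩ }
    (fun k hk r hr => ⟨Pi.single k r, fun c => by
      by_cases e : c = k
      · rw [e, Pi.single_eq_same]; exact hr
      · rw [Pi.single_eq_of_ne e]; exact zero_mem _, by
      rw [Finset.sum_eq_single k (fun c _ e => by rw [Pi.single_eq_of_ne e, mul_zero])
        (fun e => absurd (by simpa [s] using hk) e), Pi.single_eq_same]⟩) hs
  exact h.cen_aux hN s (fun c hc => hK c (by simpa [s] using hc)) r hr hx h0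

/-- The Skolem-Noether theorem. -/
theorem ID.skolem (h : ID J) (h1 : (1 : E) ∈ J) (h1K : (1 : E) ∈ K) (hK : ∀ k ∈ K, Cm1 J k)
    {g : Eˣ} (hg : g.1 ∈ K ⊔ J) (hn : ∀ x ∈ J, g.1 * x * g⁻¹.1 ∈ J)
    (hn' : ∀ x ∈ J, g⁻¹.1 * x * g.1 ∈ J) :
    ∃ u : Eˣ, u.1 ∈ J ∧ u⁻¹.1 ∈ J ∧ Cm1 J (g * u).1 := by
  have hT : ∀ v, Cm1 J (g.1 * v) → ∀ m ∈ J, m * v = v * (g.1 * m * g⁻¹.1) := fun v hv m hm => by
    have := congrArg (g⁻¹.1 * ·) (hv _ (hn m hm))
    simpa [mul_assoc] using this.symm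
  let I : E → AddSubgroup E := fun v => J.toAddSubgroup.map (AddMonoidHom.mulLeft v)
  obtain ⟨v, hv, hmax⟩ := (Set.toFinite {v | v ∈ J ∧ Cm1 J (g.1 * v)}).exists_maximalFor I _
    ⟨0, zero_mem _, fun d _ => by simp⟩
  obtain ⟨e, he, hi, hc, hid⟩ := h.ex (I v) (by rintro _ ⟨m, hm, rfl⟩; exact mul_mem hv.1 hm) (by
    rintro r hr _ ⟨m, hm, rfl⟩
    refine ⟨⟨_, J.mul_mem (hn r hr) hm, ?_⟩, ⟨_, J.mul_mem hm hr, (mul_assoc _ _ _).symm⟩⟩
    change v * _ = r * (v * m)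
    rw [← mul_assoc r, hT v hv.2 r hr, ← mul_assoc])
  obtain ⟨w, hw, ew⟩ := he
  change v * w = e at ew
  have heJ : e ∈ J := ew ▸ mul_mem hv.1 hw
  have hev : e * v = v := (hid v ⟨1, h1, mul_one v⟩).1
  have hf : ∀ d ∈ J, (1 - e) * d = d * (1 - e) := fun d hd => by
    rw [sub_mul, mul_sub, hc d hd, one_mul, mul_one]
  have he1 : e = 1 := by
    by_contra hne
    obtain ⟨_, ⟨m, hm, rfl⟩, h2, h3⟩ := h.cen h1 h1K hK (N := I (g.1 * (1 - e))) (by
      rintro r hr _ ⟨m, hm, rfl⟩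
      refine ⟨⟨_, J.mul_mem (hn' r hr) hm, ?_⟩, ⟨_, J.mul_mem hm hr, (mul_assoc _ _ _).symm⟩⟩
      change g.1 * (1 - e) * _ = r * (g.1 * (1 - e) * m)
      rw [mul_assoc, ← mul_assoc (1 - e), hf _ (hn' r hr)]
      simp [mul_assoc]) ⟨1, h1, mul_one _⟩
      (fun e0 => hne (sub_eq_zero.1 ((Units.mul_right_eq_zero g).1 e0)).symm)
      (mul_mem hg ((le_sup_right : J ≤ K ⊔ J) (sub_mem h1 heJ)))
    change g.1 * (1 - e) * m ≠ 0 at h2
    change Cm1 J (g.1 * (1 - e) * m) at h3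
    have h4 : e * (1 - e) = 0 := by rw [mul_sub, hi, mul_one, sub_self]
    have h5 : (1 - e) * v = 0 := by rw [sub_mul, hev, one_mul, sub_self]
    have h6 : (1 - e) * (1 - e) = 1 - e := by rw [sub_mul, h4, one_mul, sub_zero]
    have hmJ := mul_mem (sub_mem h1 heJ) hm
    have h7 := hmax (j := v + (1 - e) * m) ⟨add_mem hv.1 hmJ, fun d hd => by
      rw [mul_add, add_mul, mul_add, hv.2 d hd, ← mul_assoc g.1, h3 d hd]⟩ (by
      rintro _ ⟨m', hm', rfl⟩
      refine ⟨e * m', J.mul_mem heJ hm', ?_⟩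
      change (v + (1 - e) * m) * (e * m') = v * m'
      rw [← mul_assoc, ← hc _ (add_mem hv.1 hmJ), mul_add, hev, ← mul_assoc, h4, zero_mul,
        add_zero])
    obtain ⟨m', -, e'⟩ := h7 ⟨1, h1, mul_one _⟩
    have := congrArg ((1 - e) * ·) (show v * m' = v + (1 - e) * m from e')
    simp only [mul_add, ← mul_assoc, h5, h6, zero_mul, zero_add] at this
    exact h2 (by rw [mul_assoc, ← this, mul_zero])
  rw [he1] at ew
  have h2 := hT v hv.2 _ (hn' w hw)
  have h3 : g⁻¹.1 * w * g.1 * v = 1 := by simpa [mul_assoc, ew] using h2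
  have h4 : w * v = 1 := by
    have : g⁻¹.1 * w * g.1 = w := by rw [← mul_one (_ * _ * _), ← ew, ← mul_assoc, h3, one_mul]
    rwa [this] at h3
  exact ⟨⟨v, w, ew, h4⟩, hv.1, hw, hv.2⟩

end Vale.Agent.P183W5
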