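import Vale.Agent.P183NC.Node

/-!
Components modulo a central subgroup.
-/

namespace Vale.Agent.P183W5

open Subgroup Vale.Agent.P183A Vale.Agent.P183AL

variable {G : Type} [Group G] {E N L P P' W : Subgroup G} {g : G}

/-- `P` is minimal among the normal subgroups of `E` that do not lie in `N`. -/
def Cp (E N P : Subgroup G) : Prop := Minimal (fun W => Nl E W ∧ ¬ W ≤ N) P

theorem Cp.le (h : Cp E N P) : P ≤ E := h.1.1.1

theorem Cp.nm (h : Cp E N P) : Nm E P := h.1.1.2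

theorem Cp.nle (h : Cp E N P) : ¬ P ≤ N := h.1.2

theorem Cp.le_or (h : Cp E N P) (hW : Nm E W) : P ≤ W ∨ P ⊓ W ≤ N :=
  (em _).symm.imp_left fun e => (h.2 (y := P ⊓ W) ⟨⟨inf_le_left.trans h.le, h.nm.inf hW⟩, e⟩
    inf_le_left).trans inf_le_right

theorem exists_cp [Finite G] (h : Nl E W) (hN : ¬ W ≤ N) : ∃ P ≤ W, Cp E N P :=
  (Set.toFinite {W | Nl E W ∧ ¬ W ≤ N}).exists_le_minimal ⟨h, hN⟩

theorem cnj_le_iff : cnj g W ≤ P ↔ W ≤ cnj g⁻¹ P :=
  ⟨fun h => cnj_inv_cnj.ge.trans (cnj_mono h), fun h => (cnj_mono h).trans cnj_cnj_inv.le⟩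

theorem Cp.cnj (h : Cp E N P) (hE : Nm L E) (hN : Nm L N) (hg : g ∈ L) : Cp E N (cnj g P) := by
  have e := fun {X} (h : Nm L X) => cnj_eq_of_nm h (inv_mem hg)
  refine ⟨⟨h.1.1.cnj (cnj_eq_of_nm hE hg), fun c => h.nle ((cnj_le_iff.1 c).trans (e hN).le)⟩,
    fun W hW c => cnj_le_iff.2 (h.2 ⟨hW.1.cnj (e hE), fun c' => hW.2 ?_⟩ ?_)⟩
  · exact (cnj_le_iff.1 c').trans (cnj_eq_of_nm hN (inv_mem (inv_mem hg))).le
  · exact (cnj_mono c).trans cnj_inv_cnj.le

theorem Cp.comm_le (h : Cp E N P) (hW : Nl E W) (e : ¬ P ≤ W) : ⁅P, W⁆ ≤ N :=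
  (le_inf (h.nm.mono hW.1).comm_le_left (hW.2.mono h.le).comm_le_right).trans
    ((h.le_or hW.2).resolve_left e)

theorem Cp.comm_le' (h : Cp E N P) (h' : Cp E N P') (e : P ≠ P') : ⁅P, P'⁆ ≤ N :=
  h.comm_le h'.1.1 fun c => e (le_antisymm c (h'.2 h.1 c))

/-- The orbit of a subgroup. -/
def orb (L P : Subgroup G) : Set (Subgroup G) := {W | ∃ g ∈ L, W = cnj g P}

theorem nm_orb (L P : Subgroup G) : Nm L (sSup (orb L P)) := nm_sSup_of_cnj (by
  rintro k hk _ ⟨g, hg, rfl⟩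
  exact ⟨k * g, mul_mem hk hg, cnj_cnj⟩)

theorem le_orb (L P : Subgroup G) : P ≤ sSup (orb L P) := le_sSup ⟨1, one_mem _, cnj_one.symm⟩

/-- `E` is nonabelian and minimal modulo the central subgroup `N`. -/
structure MC (L E N : Subgroup G) : Prop where
  nE : Nm L E
  nN : Nm L N
  cm : Cm N E
  min : ∀ W, Nl E W → Nm L W → W ≤ N ∨ W = E
  nab : ¬ ⁅E, E⁆ ≤ N

namespace MC

variable (c : MC L E N) (h : Cp E N P)
include c h

theorem sSup_orb : sSup (orb L P) = E :=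
  (c.min _ ⟨sSup_le (by rintro _ ⟨g, hg, rfl⟩; exact (h.cnj c.nE c.nN hg).le),
    Nm.sSup (by rintro _ ⟨g, hg, rfl⟩; exact (h.cnj c.nE c.nN hg).nm)⟩ (nm_orb L P)).resolve_left
    fun e => h.nle ((le_orb L P).trans e)

theorem perfect : P ≤ ⁅P, P⁆ := by
  refine (h.le_or (h.nm.comm h.nm)).resolve_right fun e => c.nab ?_
  rw [inf_eq_right.2 (commutator_le_self P)] at e
  have hc : ∀ W ∈ orb L P, Cp E N W := by rintro _ ⟨g, hg, rfl⟩; exact h.cnj c.nE c.nN hg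
  conv_lhs => rw [← c.sSup_orb h]
  refine comm_sSup_le c.cm.symm.nm (fun W hW => (hc W hW).le) (fun W hW => (hc W hW).le)
    fun U hU W hW => ?_
  by_cases e' : U = W
  · obtain ⟨g, hg, rfl⟩ := hU
    subst e'
    refine commutator_le.2 fun x hx y hy => ?_
    have := c.nN g hg _ (e (commutator_mem_commutator (mem_cnj.1 hx) (mem_cnj.1 hy)))
    simpa [commutatorElement_def, mul_assoc] using this
  · exact (hc U hU).comm_le' (hc W hW) e'

theorem cm_of (hW : ⁅W, P⁆ ≤ N) : Cm P W :=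
  (three (c.cm.mono hW h.le)).mono (c.perfect h) le_rfl

theorem cm' (h' : Cp E N P') (e : P ≠ P') : Cm P P' := c.cm_of h (h'.comm_le' h e.symm)

/-- Two minimal normal subgroups with trivial centralisers coincide. -/
theorem le_of (n1 : Nm E W) (n2 : Nm W E) (hc : ¬ Cm P W) : P ≤ W := by
  by_contra e
  have h1 : ⁅W, P⁆ ≤ E ⊓ W := le_inf ((commutator_mono le_rfl h.le).trans n2.comm_le_right)
    (n1.mono h.le).comm_le_left
  have h2 := c.cm_of h (W := E ⊓ W) ((commutator_comm _ _).le.trans (h.comm_le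
    ⟨inf_le_left, (Nm.of_le le_rfl).inf n1⟩ fun e' => e (e'.trans inf_le_right)))
  exact hc ((three (h2.symm.mono h1 le_rfl)).mono (c.perfect h) le_rfl)

end MC

theorem MC.le [Finite G] (c : MC L E N) (n1 : Nm E W) (n2 : Nm W E)
    (hc : ∀ P ≤ E, Cm P W → P ≤ N) : E ≤ W := by
  obtain ⟨P, -, h⟩ := exists_cp (nl_self (E := E)) fun e => c.nab ((commutator_le_self _).trans e)
  rw [← c.sSup_orb h]
  refine sSup_le ?_
  rintro _ ⟨g, hg, rfl⟩
  have h' := h.cnj c.nE c.nN hg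
  exact c.le_of h' n1 n2 fun e => h'.nle (hc _ h'.le e)

end Vale.Agent.P183W5
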