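import Vale.Agent.P183W5.LemM
import Vale.Agent.P183W5.Comp

/-!
The core step: after raising the base the core meets `Ω` in scalars.
-/

set_option linter.unusedSectionVars false

namespace Vale.Agent.P183W5

open Subgroup Vale.Agent.P183A Vale.Agent.P183NK Vale.Agent.P183NK.FS Vale.Agent.P183AL
open scoped commutatorElement

variable {p : ℕ} [Fact p.Prime] {V : Type} [AddCommGroup V] [Module (ZMod p) V] [Finite V]
  {S : FS p V} {Z : S.NR} {n m k : ℕ} {H a b y W R : Subgroup S.Eˣ} {g : S.Eˣ}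

theorem cm_sca_iso (hZ : S.Scal Z 1) (hW : W ≤ S.iso (S.cent Z 1)) : Cm (S.sca Z) W :=
  fun _ hg _ hk => Units.ext (sca_comm hZ hg (iso_mem (one_mem_cent Z) (hW hk)))

theorem cm1_sup {x : S.E} (hx : x ∈ S.cent Z 1) (h : ∀ g ∈ W, x * g.1 = g.1 * x) :
    Cm1 (Z ⊔ S.spanR W) x := fun _ hd =>
  (sup_le (fun z hz => by simpa [NonUnitalSubring.mem_centralizer_iff] using hx.2.2 z hz)
    (fun z hz => by simpa [NonUnitalSubring.mem_centralizer_iff] using cm1_spanR.2 h z hz) :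
      _ ≤ NonUnitalSubring.centralizer {x}) hd x rfl

theorem unit_of_sub (hZ : S.Scal Z 1) {c d : S.Eˣ} (hc : c ∈ S.sca Z) (hd : d ∈ S.sca Z)
    (hc' : c ∈ UU S) (hd' : d ∈ UU S) (h : c ≠ d) : ∃ w ∈ Z, w * (c.1 - d.1) = 1 := by
  rw [mem_sca hZ.mem] at hc hd
  have h1 := sub_mem hc hd
  refine (hZ.inv_of_norm h1 fun e => h (Units.ext (sub_eq_zero.1 (hZ.red _ h1 ?_)))).imp
    fun w hw => ⟨hw.1, (hZ.comm _ hw.1 _ h1).trans hw.2⟩
  have := congrArg (fun x => c.1 * x * d.1) e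
  rw [st_sub, st_eq_inv hc', st_eq_inv hd'] at this
  simp only [← mul_assoc, hZ.comm _ hc _ h1, mul_zero, zero_mul] at this
  rw [mul_assoc, mul_assoc, sub_mul c⁻¹.1, Units.inv_mul, mul_sub c.1, Units.mul_inv_cancel_left,
    mul_one] at this
  rw [← neg_eq_zero, ← mul_neg, neg_sub, this]

/-- A group that is abelian modulo scalars and spans `A` is self-centralising modulo scalars. -/
theorem eig (hZ : S.Scal Z 1) (hR : R ≤ S.iso (S.cent Z 1)) (hA : S.cent Z 1 ≤ Z ⊔ S.spanR R)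
    (hc : ∀ x ∈ S.cent Z 1, Cm1 (S.cent Z 1) x → x ∈ Z) (h1 : ⁅R, R⁆ ≤ S.sca Z)
    (hg : g ∈ S.iso (S.cent Z 1)) (h2 : ∀ r ∈ R, ⁅r, g⁆ ∈ S.sca Z) : g ∈ R ⊔ S.sca Z := by
  classical
  by_contra h0
  have hm : ∀ {g}, g ∈ S.iso (S.cent Z 1) → g.1 ∈ S.cent Z 1 := iso_mem (one_mem_cent Z)
  have hne : ∀ s ∈ R, ∃ r ∈ R, ⁅r, g⁆ ≠ ⁅r, s⁆ := fun s hs => by
    by_contra c
    push Not at c
    have h3 := hm (mul_mem (hR (inv_mem hs)) hg)
    refine h0 (mul_inv_cancel_left s g ▸ mul_mem (mem_sup_left hs) (mem_sup_right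
      ((mem_sca hZ.mem).2 (hc _ h3 ((cm1_sup h3 fun r hr => Units.ext_iff.1
        (?_ : s⁻¹ * g * r = r * (s⁻¹ * g))).mono hA)))))
    calc s⁻¹ * g * r = s⁻¹ * r * (⁅r⁻¹, g⁆ * g) := by simp only [commutatorElement_def]; group
      _ = _ := by rw [c _ (inv_mem hr)]; simp only [commutatorElement_def]; group
  have key : ∀ T : Finset S.Eˣ, ∃ π : S.E →+ S.E, π g.1 = g.1 ∧
      (∀ z ∈ Z, ∀ x, π (z * x) = z * π x) ∧ ∀ s ∈ T, s ∈ R → π s.1 = 0 := fun T => by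
    induction T using Finset.induction_on with
    | empty => exact ⟨AddMonoidHom.id _, rfl, fun _ _ _ => rfl, by simp⟩
    | insert s T _ ih =>
      obtain ⟨π, p1, p2, p3⟩ := ih
      by_cases hs : s ∈ R
      swap
      · exact ⟨π, p1, p2, fun t ht h => p3 t ((Finset.mem_insert.1 ht).resolve_left
          fun e => hs (e ▸ h)) h⟩
      obtain ⟨r, hr, h3⟩ := hne s hs
      have h4 := fun t (ht : t ∈ R) => h1 (commutator_mem_commutator hr ht)
      have hU := fun {t} (ht : t ∈ S.iso _) => iso_le_UU _ (commutator_le_self _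
        (commutator_mem_commutator (hR hr) ht))
      obtain ⟨w, hw, e⟩ := unit_of_sub hZ (h2 r hr) (h4 s hs) (hU hg) (hU (hR hs)) h3
      have h5 := (mem_sca hZ.mem).1 (h4 s hs)
      have h6 : ∀ t : S.Eˣ, w * (r.1 * t.1 * r⁻¹.1 - ⁅r, s⁆.1 * t.1) =
          w * (⁅r, t⁆.1 - ⁅r, s⁆.1) * t.1 := fun t => by
        simp [commutatorElement_def, mul_assoc, sub_mul]
      refine ⟨π.comp (AddMonoidHom.mk' (fun x => w * (r.1 * x * r⁻¹.1 - ⁅r, s⁆.1 * x))
        fun x y => by noncomm_ring), ?_, fun z hz x => ?_, fun t ht h => ?_⟩ <;>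
        simp only [AddMonoidHom.comp_apply, AddMonoidHom.mk'_apply]
      · rw [h6, e, one_mul, p1]
      · rw [← p2 z hz, ← mul_assoc z, hZ.comm z hz w hw, ← mul_assoc r.1, (hm (hR hr)).2.2 z hz,
          ← mul_assoc _ z, hZ.comm _ h5 z hz]
        congr 1
        noncomm_ring
      · rw [h6, p2 _ (mul_mem hw (sub_mem ((mem_sca hZ.mem).1 (h4 t h)) h5))]
        rcases Finset.mem_insert.1 ht with rfl | ht
        · rw [sub_self, mul_zero, zero_mul]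
        · rw [p3 t ht h, mul_zero]
  have := Fintype.ofFinite S.Eˣ
  obtain ⟨π, p1, p2, p3⟩ := key Finset.univ
  let Q : S.NR :=
    { carrier := {x | ∀ y, (∀ s ∈ R, π (s.1 * y) = 0) → ∀ s ∈ R, π (s.1 * (x * y)) = 0}
      add_mem' := fun ha hb y hy s hs => by
        rw [add_mul, mul_add, map_add, ha y hy s hs, hb y hy s hs, add_zero]
      zero_mem' := fun _ _ _ _ => by simp
      mul_mem' := fun ha hb y hy s hs => by rw [mul_assoc]; exact ha _ (hb y hy) s hs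
      neg_mem' := fun ha y hy s hs => by rw [neg_mul, mul_neg, map_neg, ha y hy s hs, neg_zero] }
  have hQ : Z ⊔ S.spanR R ≤ Q := sup_le (fun z hz y hy s hs => by
    rw [← mul_assoc, (hm (hR hs)).2.2 z hz, mul_assoc, p2 z hz, hy s hs, mul_zero])
    (spanR_le.2 fun t ht y hy s hs => by rw [← mul_assoc]; exact hy _ (mul_mem hs ht))
  have h3 := hQ (hA (hm hg)) 1 (fun s hs => by rw [mul_one, p3 s (Finset.mem_univ s) hs]) 1
    (one_mem _)
  rw [Units.val_one, one_mul, mul_one, p1] at h3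
  exact hZ.ne (by rw [← g.mul_inv, h3, zero_mul])

namespace C5

variable (c : C5 S Z n H a b)
include c

theorem full (hW : W ≤ S.iso (S.cent Z 1)) (hn : Nm a W) (h0 : ¬ W ≤ S.sca Z) :
    S.cent Z 1 ≤ Z ⊔ S.spanR W :=
  ((c.lemM le_sup_left (sup_le c.scal.le_cent (spanR_le.2 fun _ hg =>
    iso_mem (one_mem_cent Z) (hW hg))) (st_sup c.scal.star (st_spanR fun _ hg => iso_uni (hW hg)))
    (c.nmZ.sup' (nmR_spanR hn))).resolve_left fun e =>
      h0 ((spanR_le_iff c.scal.mem).1 (le_sup_right.trans e))).ge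

theorem le_sca (hW : W ≤ S.iso (S.cent Z 1)) (hn : Nm a W) (h0 : ¬ W ≤ S.sca Z)
    (hR : R ≤ S.iso (S.cent Z 1)) (h : Cm R W) : R ≤ S.sca Z := fun g hg =>
  (mem_sca c.scal.mem).2 (c.ctrA ((cm1_sup (iso_mem (one_mem_cent Z) (hR hg)) fun k hk =>
    congrArg Units.val (h g hg k hk)).mono (c.full hW hn h0)))

theorem nm_sca : Nm b (S.sca Z) := (nm_gam_sca c.scal).mono c.gam

theorem ab_le (h1 : W ≤ S.iso (S.cent Z 1)) (h2 : R ≤ S.iso (S.cent Z 1)) (w1 : W ≤ a)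
    (r1 : R ≤ a) (w2 : Nm a W) (r2 : Nm a R) (r3 : ¬ R ≤ S.sca Z) (w4 : ⁅W, W⁆ ≤ S.sca Z)
    (r4 : ⁅R, R⁆ ≤ S.sca Z) : W ≤ R ⊔ S.sca Z := fun g hg => by
  by_cases e : W ⊓ R ≤ S.sca Z
  · exact eig c.scal h2 (c.full h2 r2 r3) (fun _ _ => c.ctrA) r4 (h1 hg) fun r hr =>
      e (le_inf (w2.mono r1).comm_le_right (r2.mono w1).comm_le_left
        (commutator_mem_commutator hr hg))
  · exact (sup_le_sup_right inf_le_right _ : W ⊓ R ⊔ _ ≤ R ⊔ S.sca Z) (eig c.scal (inf_le_right.trans h2)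
      (c.full (inf_le_right.trans h2) (w2.inf r2) e) (fun _ _ => c.ctrA)
      ((commutator_mono inf_le_left inf_le_left).trans w4) (h1 hg) fun r hr =>
        w4 (commutator_mem_commutator hr.1 hg))

theorem core (hm : 3 ≤ m) (hg : Good m (k + 1) a b) : ∃ a', a < a' ∧ Good m k a' b ∧
    CC H a' ⊓ S.om (S.cent Z 1) ≤ S.sca Z := by
  refine hg.raise (r := 2) hm _ fun _ z hA s hs => ?_
  have hz := fun i => (hA.lt_z i).le
  choose! R hR using fun i (hi : ¬ CC H (z i) ⊓ S.om (S.cent Z 1) ≤ S.sca Z) =>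
    (Set.toFinite {R | (R ≤ CC H (z i) ⊓ S.om (S.cent Z 1) ∧ Nm (z i) R) ∧ ¬ R ≤ S.sca Z}).exists_minimal
      ⟨_, ⟨le_rfl, (nm_CC H _).inf ((nm_gam_om c.scal).mono ((hA.z_lt i).le.trans c.gam))⟩, hi⟩
  let B : Fin m → Prop := fun i => ¬ CC H (z i) ⊓ S.om (S.cent Z 1) ≤ S.sca Z
  have r0 : ∀ i, B i → R i ≤ H := fun i hi => (hR i hi).1.1.1.trans (inf_le_left.trans (CC_le _ _))
  have r1 : ∀ i, B i → R i ≤ a := fun i hi => (r0 i hi).trans c.hairy.le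
  have r2 : ∀ i, B i → R i ≤ S.om (S.cent Z 1) := fun i hi => (hR i hi).1.1.1.trans inf_le_right
  have r3 : ∀ i, B i → R i ≤ S.iso (S.cent Z 1) := fun i hi => (r2 i hi).trans (om_le_iso _)
  have r4 : ∀ i, B i → Nm a (R i) := fun i hi => (hR i hi).1.1.2.mono (hz i)
  have fin : ∀ i j, B i → B j → R i ≤ R j ⊔ S.sca Z → R j ≤ R i ⊔ S.sca Z → i = j := by
    intro i j hi hj h1 h2
    by_contra e
    have h3 : ∀ l, B l → Nm (z l) (R l ⊔ S.sca Z) := fun l hl =>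
      (hR l hl).1.1.2.sup (c.nm_sca.mono (hA.z_lt l).le)
    have h4 := (h3 i hi).sup_left (le_antisymm (sup_le h2 le_sup_right) (sup_le h1 le_sup_right) ▸
      h3 j hj)
    rw [hA.sup_eq e le_rfl (hA.z_lt i) le_rfl (hA.z_lt j)] at h4
    rcases c.nrm (_ ⊓ _) (inf_le_right.trans (om_le_iso _)) ((h4.mono c.omb).inf (Nm.of_le le_rfl))
      with h5 | h5
    · exact (hR i hi).1.2 ((le_inf le_sup_left (r2 i hi)).trans h5)
    · exact EE_nle (c.hairy.nomod c.le le_rfl)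
        (c.top.le.trans (h5.trans (inf_le_left.trans (sup_le (r0 i hi) c.sca))))
  have nab : ∀ i j, B i → B j → ¬ ⁅R i, R i⁆ ≤ S.sca Z → R i ≤ R j ⊔ S.sca Z := fun i j hi hj h =>
    (MC.le (L := z i) ⟨(hR i hi).1.1.2, c.nm_sca.mono (hA.z_lt i).le, cm_sca_iso c.scal (r3 i hi),
      fun W h1 h2 => (em _).imp_right fun e => le_antisymm h1.1 ((hR i hi).2
        ⟨⟨h1.1.trans (hR i hi).1.1.1, h2⟩, e⟩ h1.1), h⟩ ((r4 j hj).mono (r1 i hi))
      ((r4 i hi).mono (r1 j hj)) fun P hP => c.le_sca (r3 j hj) (r4 j hj) (hR j hj).1.2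
        (hP.trans (r3 i hi))).trans le_sup_left
  refine card_le_add_of (r := 1) (r' := 1) (Bad := fun i => B i ∧ ⁅R i, R i⁆ ≤ S.sca Z)
    (Bad' := fun i => B i ∧ ¬ ⁅R i, R i⁆ ≤ S.sca Z) (card_le_one_of fun i j hi hj => ?_)
    (card_le_one_of fun i j hi hj => fin i j hi.1 hj.1 (nab i j hi.1 hj.1 hi.2)
      (nab j i hj.1 hi.1 hj.2)) s fun i hi => and_or_left.1 ⟨hs i hi, em _⟩
  have := fun i j (hi : B i ∧ _) (hj : B j ∧ _) => c.ab_le (r3 i hi.1) (r3 j hj.1) (r1 i hi.1)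
    (r1 j hj.1) (r4 i hi.1) (r4 j hj.1) (hR j hj.1).1.2 hi.2 hj.2
  exact fin i j hi.1 hj.1 (this i j hi hj) (this j i hj hi)

end C5

end Vale.Agent.P183W5
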