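import Vale.Agent.P183W5.Ring

/-!
The standing hypotheses at an absolutely irreducible node.
-/

set_option linter.unusedSectionVars false

namespace Vale.Agent.P183W5

open Subgroup Vale.Agent.P183A Vale.Agent.P183NK Vale.Agent.P183NK.FS

variable {p : ℕ} [Fact p.Prime] {V : Type} [AddCommGroup V] [Module (ZMod p) V]

/-- An absolutely irreducible node `a` below the top `b`. -/
structure Cx (S : FS p V) (Z : S.NR) (n : ℕ) (H a b : Subgroup S.Eˣ) : Prop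
    extends S.LC Z n H b where
  hairy : Hairy H a b
  le : a ≤ b
  irr : S.Irr Z a
  abs : S.Abs Z (EE H a)
  inv : ∀ R ≤ S.cent Z 1, (∀ x ∈ R, S.st x ∈ R) → S.NmR (S.om (S.cent Z 1)) R →
    R ≤ Z ∨ R = S.cent Z 1

variable [Finite V] {S : FS p V} {Z J K : S.NR} {n : ℕ} {H a b y X Y : Subgroup S.Eˣ} {x : S.E}
  {g : S.Eˣ}

theorem msl (h : x ∈ J) : x ∈ J ⊔ K := (le_sup_left : J ≤ J ⊔ K) h

theorem msr (h : x ∈ K) : x ∈ J ⊔ K := (le_sup_right : K ≤ J ⊔ K) h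

theorem one_mem_spanR (X : Subgroup S.Eˣ) : (1 : S.E) ∈ S.spanR X := val_mem_spanR X.one_mem

theorem spanR_le_iff (h : (1 : S.E) ∈ J) : S.spanR X ≤ J ↔ X ≤ S.sca J :=
  spanR_le.trans (forall₂_congr fun _ _ => (mem_sca h).symm)

theorem spanR_sup (X Y : Subgroup S.Eˣ) : S.spanR (X ⊔ Y) ≤ S.spanR X ⊔ S.spanR Y := by
  have h : (1 : S.E) ∈ S.spanR X ⊔ S.spanR Y := msl (one_mem_spanR X)
  exact (spanR_le_iff h).2 (sup_le ((spanR_le_iff h).1 le_sup_left) ((spanR_le_iff h).1 le_sup_right))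

theorem cm1_spanR : Cm1 (S.spanR X) x ↔ ∀ g ∈ X, x * g.1 = g.1 * x :=
  mem_cent_one.symm.trans mem_cent_spanR

theorem Cm1.mono (h : Cm1 J x) (hK : K ≤ J) : Cm1 K x := fun d hd => h d (hK hd)

theorem nmR_sca (h : (1 : S.E) ∈ J) : S.NmR (S.sca J) J := fun _ hg _ hx =>
  mul_mem (mul_mem ((mem_sca h).1 hg) hx) ((mem_sca h).1 (inv_mem hg))

theorem iso_le_sca (h : (1 : S.E) ∈ J) : S.iso J ≤ S.sca J := fun _ hg =>
  (mem_sca h).2 (iso_mem h hg)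

theorem top_inv {c : ℕ} (h2 : N2 c) {c' : ℕ} (hB : BAS c') (hZ : S.Scal Z 1) (hn : S.Rank Z 1 n)
    (hc : c ≤ n) (hc' : c' ≤ n) (R : S.NR) (hR : R ≤ S.cent Z 1) (hs : ∀ x ∈ R, S.st x ∈ R)
    (h : S.NmR (S.om (S.cent Z 1)) R) : R ≤ Z ∨ R = S.cent Z 1 := by
  obtain ⟨h3, h4, h5, h6⟩ := hB p V S Z 1 n hZ hn
  exact (h2 p V S _ 1 n h3 (h6 hc') h5 hc R hR hs h).imp_left fun e => e.trans h4.le

namespace Cx

variable (c : Cx S Z n H a b)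
include c

theorem nomod : NoMod H a := c.hairy.nomod le_rfl c.le

theorem E_mono (h1 : a ≤ y) (h2 : y ≤ b) : EE H a ≤ EE H y :=
  EE_mono c.nomod (c.hairy.nomod h1 h2) h1

theorem up (h1 : a ≤ y) (h2 : y ≤ b) : Cx S Z n H y b :=
  ⟨c.toLC, c.hairy.up h1, h2, c.irr.mono h1, c.abs.mono (c.E_mono h1 h2), c.inv⟩

theorem omb : S.om (S.cent Z 1) ≤ b := c.toLC.om_le c.hairy le_rfl c.le

theorem E_om : EE H a ≤ S.om (S.cent Z 1) := c.toLC.EE_le_om c.hairy le_rfl c.le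

theorem E_iso : EE H a ≤ S.iso (S.cent Z 1) := c.E_om.trans (om_le_iso _)

theorem agam : a ≤ S.gam Z := c.le.trans c.gam

theorem nmZ : S.NmR a Z := fun _ hg _ hz => gam_Z c.scal (c.agam hg) hz

theorem nmA : S.NmR a (S.cent Z 1) := c.nmZ.cent_one

theorem fix : S.fixV (EE H a) = ⊥ := c.toLC.fixV_EE c.hairy le_rfl c.le c.irr

theorem fix' (v : V) (h : ∀ g ∈ EE H a, g.1 v = v) : v = 0 := c.fix.le h

theorem R_le : S.spanR (EE H a) ≤ S.cent Z 1 :=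
  spanR_le.2 fun _ hg => iso_mem (one_mem_cent _) (c.E_iso hg)

theorem R_st : ∀ x ∈ S.spanR (EE H a), S.st x ∈ S.spanR (EE H a) :=
  st_spanR fun _ hg => iso_uni (c.E_iso hg)

theorem R_nm : S.NmR a (S.spanR (EE H a)) := nmR_spanR (nm_EE H a)

theorem R_nle : ¬ S.spanR (EE H a) ≤ Z := fun h =>
  EE_nle c.nomod (((spanR_le_iff c.scal.mem).1 h).trans c.sca)

theorem ss (hJ : J ≤ S.cent Z 1) (h1 : (1 : S.E) ∈ J) (hn : S.NmR a J) : SS J :=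
  Irr.ss c.irr hJ h1 hn

theorem id (hJ : J ≤ S.cent Z 1) (h1 : (1 : S.E) ∈ J) (hn : S.NmR a J) : ID J :=
  (c.ss hJ h1 hn).id h1

theorem mem_Z (hx : x ∈ S.cent Z 1) (h : Cm1 (S.spanR (EE H a)) x) : x ∈ Z :=
  c.abs x hx fun g hg => (cm1_spanR.1 h g hg).symm

theorem cmZ (hJ : J ≤ S.cent Z 1) : ∀ z ∈ Z, Cm1 J z := fun z hz _ hd => ((hJ hd).2.2 z hz).symm

theorem A_le : S.cent Z 1 ≤ Z ⊔ S.spanR (EE H a) := fun x hx => by
  have h1 : (1 : S.E) ∈ Z ⊔ S.spanR (EE H a) := msl c.scal.mem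
  refine (c.ss (sup_le c.scal.le_cent c.R_le) h1 (c.nmZ.sup' c.R_nm)).dc h1 fun d hd => ?_
  exact hx.2.2 d (c.mem_Z (mem_cent_one.2 (hd.mono le_sup_left)) (hd.mono le_sup_right))

/-- The stabiliser of a proper invariant subring is a proper node. -/
theorem stab (hJ : J ≤ S.cent Z 1) (hs : ∀ x ∈ J, S.st x ∈ J) (h1 : ¬ J ≤ Z)
    (h2 : J ≠ S.cent Z 1) : b ⊓ nR J < b :=
  lt_of_le_of_ne inf_le_left fun e => (c.inv J hJ hs (nmR_iff.2
    (c.omb.trans (e.ge.trans inf_le_right)))).elim h1 h2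

theorem R_top : S.spanR (EE H b) = S.cent Z 1 :=
  let c' := c.up c.le le_rfl
  (c.inv _ c'.R_le c'.R_st (c'.R_nm.mono c.omb)).resolve_left c'.R_nle

theorem E_sup {u : Subgroup S.Eˣ} (h1 : a ≤ y) (h2 : a ≤ u) (e : y ⊔ u = b) :
    EE H b = EE H y ⊔ EE H u := by
  subst e
  exact EE_sup (c.hairy.nomod h1 le_sup_left) (c.hairy.nomod h2 le_sup_right)
    (c.hairy.nomod c.le le_rfl)

end Cx

end Vale.Agent.P183W5
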