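import Vale.Agent.P183W5.Cx
import Vale.Agent.P183WD.Ctx
import Vale.Agent.P183WA.Geo2

/-!
Invariant subrings at a full primitive node: there are only the trivial ones.
-/

set_option linter.unusedSectionVars false

namespace Vale.Agent.P183W5

open Subgroup Vale.Agent.P183A Vale.Agent.P183NK Vale.Agent.P183NK.FS Vale.Agent.P183WD
open scoped commutatorElement

variable {p : ℕ} [Fact p.Prime] {V : Type} [AddCommGroup V] [Module (ZMod p) V]

/-- A full node without invariant orthogonal decompositions. -/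
structure C5 (S : FS p V) (Z : S.NR) (n : ℕ) (H a b : Subgroup S.Eˣ) : Prop
    extends Cx S Z n H a b where
  ful : S.cent Z 1 ≤ S.spanR (EE H a)
  pure : DnPure S Z a
  nrm : ∀ X ≤ S.iso (S.cent Z 1), Nm (S.om (S.cent Z 1)) X → X ≤ S.sca Z ∨ S.om (S.cent Z 1) ≤ X

/-- The unitary group. -/
def UU (S : FS p V) : Subgroup S.Eˣ where
  carrier := {g | S.st g.1 * g.1 = 1}
  one_mem' := by simp
  mul_mem' := fun {a b} ha hb => by
    change S.st (a.1 * b.1) * (a.1 * b.1) = 1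
    rw [st_mul, mul_assoc, ← mul_assoc (S.st a.1), ha, one_mul, hb]
  inv_mem' := fun {a} ha => by
    change S.st a⁻¹.1 * a⁻¹.1 = 1
    rw [← st_eq_inv ha, st_st, st_eq_inv ha, Units.mul_inv]

/-- The projection of `X` to the tensor factor `M`. -/
def pj {S : FS p V} (M : S.NR) (X : Subgroup S.Eˣ) : Subgroup S.Eˣ := S.sca M ⊓ (X ⊔ cR M)

/-- The derived group of the projection. -/
def ed {S : FS p V} (M : S.NR) (X : Subgroup S.Eˣ) : Subgroup S.Eˣ := ⁅pj M X, pj M X⁆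

variable [Finite V] {S : FS p V} {Z M M' : S.NR} {n : ℕ} {H a b y X Y : Subgroup S.Eˣ} {x : S.E}
  {g : S.Eˣ}

theorem iso_le_UU (J : S.NR) : S.iso J ≤ UU S := fun _ => iso_uni

theorem ed_le (M : S.NR) (X : Subgroup S.Eˣ) : ed M X ≤ S.sca M :=
  (commutator_le_self _).trans inf_le_left

theorem nm_cR (h : S.NmR X M) : Nm X (cR M) := fun g hg _ hk =>
  mem_cent_one.1 (h.cent_one g hg _ (mem_cent_one.2 hk))

theorem nm_sca (h1 : (1 : S.E) ∈ M) (h : S.NmR X M) : Nm X (S.sca M) := fun g hg _ hk =>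
  (mem_sca h1).2 (h g hg _ ((mem_sca h1).1 hk))

theorem nm_ed (h1 : (1 : S.E) ∈ M) (h : S.NmR Y M) (hX : Nm Y X) : Nm Y (ed M X) :=
  have := (nm_sca h1 h).inf (hX.sup (nm_cR h))
  this.comm this

theorem cm_sca (h1 : (1 : S.E) ∈ M) : Cm (S.sca M) (cR M) := fun _ hg _ hk =>
  Units.ext (hk _ ((mem_sca h1).1 hg)).symm

theorem Cm1.st (hs : ∀ x ∈ M, S.st x ∈ M) (h : Cm1 M x) : Cm1 M (S.st x) :=
  mem_cent_one.1 (st_mem_cent hs S.st_one (mem_cent_one.2 h))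

theorem comm_le_UU (hZ : S.Scal Z 1) (h : ∀ g ∈ X, g.1 ∈ S.cent Z 1 ∧ S.st g.1 * g.1 ∈ Z) :
    ⁅X, X⁆ ≤ UU S := commutator_le.2 fun a ha b hb => by
  have mu : ∀ {g : S.Eˣ}, g ∈ X → ∀ {k : S.Eˣ}, k ∈ X →
      S.st (g * k).1 * (g * k).1 = S.st g.1 * g.1 * (S.st k.1 * k.1) := fun {g} hg k hk => by
    have c := (hZ.toLoc.cent.star _ (h k hk).1).2.2 _ (h g hg).2
    rw [Units.val_mul, st_mul, ← mul_assoc (S.st g.1 * g.1), ← c]
    simp only [mul_assoc]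
  have i1 := mu ha (inv_mem ha)
  have i2 := mu hb (inv_mem hb)
  rw [mul_inv_cancel, Units.val_one, st_one, one_mul] at i1 i2
  change S.st _ * _ = 1
  rw [commutatorElement_def, mu (mul_mem (mul_mem ha hb) (inv_mem ha)) (inv_mem hb),
    mu (mul_mem ha hb) (inv_mem ha), mu ha hb, mul_assoc (S.st a.1 * a.1),
    hZ.comm _ (h b hb).2 _ (h _ (inv_mem ha)).2, ← mul_assoc (S.st a.1 * a.1), ← i1, one_mul, ← i2]

theorem ed_le_UU (hZ : S.Scal Z 1) (h1 : (1 : S.E) ∈ M) (hA : M ≤ S.cent Z 1)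
    (hs : ∀ x ∈ M, S.st x ∈ M) (hc : ∀ x ∈ M, Cm1 M x → x ∈ Z) (hX : X ≤ UU S) (hn : S.NmR X M) :
    ed M X ≤ UU S := comm_le_UU hZ fun u hu => by
  have h2 := (mem_sca h1).1 hu.1
  refine ⟨hA h2, hc _ (mul_mem (hs _ h2) h2) ?_⟩
  obtain ⟨g, hg, w, hw, rfl⟩ := (nm_cR hn).mem_sup.1 hu.2
  rw [Units.val_mul, st_mul, mul_assoc, ← mul_assoc (S.st g.1), hX hg, one_mul]
  exact fun d hd => by rw [mul_assoc, hw d hd, ← mul_assoc, Cm1.st hs hw d hd, mul_assoc]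

theorem exists_pj (h : ID M) (h1 : (1 : S.E) ∈ M) (hg : g ∈ X) (hA : g.1 ∈ S.cent M 1 ⊔ M)
    (hn : S.NmR X M) : ∃ u ∈ pj M X, g * u ∈ cR M := by
  obtain ⟨u, h2, -, h3⟩ := h.skolem h1 (one_mem_cent M) (fun _ hk => mem_cent_one.1 hk) hA (hn g hg)
    (hn _ (inv_mem hg))
  exact ⟨u, ⟨(mem_sca h1).2 h2, inv_mul_cancel_left g u ▸ mul_mem (mem_sup_left (inv_mem hg))
    (mem_sup_right h3)⟩, h3⟩

/-- The defect of unitary elements of a tensor factor is a coboundary. -/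
theorem qtrick (ho : S.orth) (h : SS M) (h1 : (1 : S.E) ∈ M) (hs : ∀ x ∈ M, S.st x ∈ M)
    (hX : X ≤ UU S) (hXM : X ≤ cR M) (hY : Y ≤ UU S) (hYM : Y ≤ S.sca M) (hf : S.fixV Y = ⊥) :
    ∃ μ : V →+ ZMod p, ∀ u ∈ X, ∀ v, S.q (u.1 v) - μ (u.1 v) = S.q v - μ v := by
  let l : ∀ g ∈ UU S, V →+ ZMod p := fun g hg => qdiff (fun v => S.q (g.1 v)) S.q
    (fun x y => S.β x y) (fun x y => by rw [map_add, S.q_add ho, uni_β hg]) (S.q_add ho)
  have hc : ∀ u ∈ X, ∀ r ∈ M, ∀ v, u.1 (r v) = r (u.1 v) := fun u hu r hr v =>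
    congrArg (fun f : S.E => f v) (hXM hu r hr)
  obtain ⟨e, ⟨-, μ, he⟩, h2⟩ := h.lideal h1
    { carrier := {x | x ∈ M ∧ ∃ μ : V →+ ZMod p, ∀ u (hu : u ∈ X) v,
        l u (hX hu) (S.st x v) = μ (u.1 v) - μ v}
      add_mem' := fun ⟨h2, μ, h3⟩ ⟨h4, ν, h5⟩ => ⟨add_mem h2 h4, μ + ν, fun u hu v => by
        rw [st_add, LinearMap.add_apply, map_add, h3 u hu, h5 u hu]
        simp only [AddMonoidHom.add_apply]; ring⟩
      zero_mem' := ⟨zero_mem _, 0, by simp⟩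
      neg_mem' := fun ⟨h2, μ, h3⟩ => ⟨neg_mem h2, -μ, fun u hu v => by
        rw [st_neg, LinearMap.neg_apply, map_neg, h3 u hu]
        simp only [AddMonoidHom.neg_apply]; ring⟩ }
    (fun _ hx => hx.1) fun r hr x ⟨h2, μ, h3⟩ => ⟨mul_mem hr h2,
      μ.comp (S.st r).toAddMonoidHom, fun u hu v => by
        rw [st_mul, Module.End.mul_apply, h3 u hu, hc u hu _ (hs r hr)]; rfl⟩
  have h3 : e = 1 := LinearMap.ext fun v => (sub_eq_zero.1 (hf.le (show v - e v ∈ _ from fun w hw => by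
    have := congrArg (fun f : S.E => f v) (h2 (w.1 - 1) ⟨sub_mem ((mem_sca h1).1 (hYM hw)) h1,
      l _ (hY (inv_mem hw)), fun u hu v => by
        rw [st_sub, st_one, st_eq_inv (hY hw), LinearMap.sub_apply, map_sub]
        simp only [l, qdiff, AddMonoidHom.mk'_apply, Module.End.one_apply,
          hc u hu _ ((mem_sca h1).1 (hYM (inv_mem hw)))]
        ring⟩)
    simp only [Module.End.mul_apply, LinearMap.sub_apply, Module.End.one_apply] at this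
    rw [map_sub, sub_eq_sub_iff_sub_eq_sub, this]))).symm
  refine ⟨μ, fun u hu v => ?_⟩
  have := he u hu v
  rw [h3, st_one] at this
  change S.q (u.1 v) - S.q v = _ at this
  linear_combination this

namespace C5

variable (c : C5 S Z n H a b)
include c

theorem up (h1 : a ≤ y) (h2 : y ≤ b) : C5 S Z n H y b :=
  ⟨c.toCx.up h1 h2, c.ful.trans (spanR_mono (c.E_mono h1 h2)),
    fun D hD h => c.pure D hD fun g hg => h g (h1 hg), c.nrm⟩

theorem ssA : SS (S.cent Z 1) := c.ss le_rfl (one_mem_cent Z) c.nmA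

theorem ctrA (h : Cm1 (S.cent Z 1) x) : x ∈ Z :=
  c.mem_Z (mem_cent_one.2 (h.mono c.scal.le_cent)) (h.mono c.R_le)

theorem fixU (hX : X ≤ UU S) (hA : X ≤ S.sca (S.cent Z 1)) (hn : Nm (EE H a) X) (h0 : X ≠ ⊥) :
    S.fixV X = ⊥ := by
  have hc : ∀ z ∈ Z, ∀ g ∈ X, g.1 * z = z * g.1 := fun z hz g hg =>
    ((mem_sca (one_mem_cent Z)).1 (hA hg)).2.2 z hz
  let Q : S.NR :=
    { carrier := {x | ∀ v ∈ S.fixV X, x v ∈ S.fixV X}
      add_mem' := fun ha hb v hv => add_mem (ha v hv) (hb v hv)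
      zero_mem' := fun _ _ => zero_mem _
      mul_mem' := fun ha hb v hv => ha _ (hb v hv)
      neg_mem' := fun ha v hv => neg_mem (ha v hv) }
  obtain ⟨z, hi, hz, hU⟩ := c.ssA (S.fixV X) fun x hx =>
    (spanR_le (J := Q)).2 (fun g hg v hv => fixV_inv hn hg hv) (c.ful hx)
  replace hz := c.ctrA hz
  have hf : ∀ g ∈ X, g.1 * z = z := fun g hg => LinearMap.ext fun v =>
    (hU (z v)).2 (idem_app hi v) g hg
  rcases c.scal.idem_cases hz hi with e | e | e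
  · exact le_bot_iff.1 fun v hv => by rw [← (hU v).1 hv, e]; rfl
  · exact absurd (le_bot_iff.1 fun g hg => Units.ext (by simpa [e] using hf g hg)) h0
  · refine absurd (le_bot_iff.1 fun g hg => Units.ext ?_) h0
    have h1 := congrArg S.st (hf g⁻¹ (inv_mem hg))
    rw [st_mul, st_eq_inv (hX (inv_mem hg)), inv_inv, e, sub_mul, one_mul, ← hc z hz g hg,
      hf g hg] at h1
    exact sub_left_injective h1

section
variable (h1 : (1 : S.E) ∈ M) (hA : M ≤ S.cent Z 1) (hs : ∀ x ∈ M, S.st x ∈ M) (hn : S.NmR a M)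
include h1 hA hs hn

theorem simp : S.Simp M 1 := by
  classical
  refine simp_of (c.id hA h1 hn) ⟨h1, c.scal.ne, S.st_one, fun _ _ => one_mul _,
    fun _ _ => mul_one _, hs⟩ fun f f1 f2 f3 f4 => or_iff_not_imp_left.2 fun f0 => ?_
  let P : S.E → Prop := fun e => (e ∈ M ∧ Cm1 M e) ∧ SI S Z e ∧ e ≠ 0
  have hP : ∀ g ∈ a, ∀ e, P e → P (cj g e) := fun g hg e he =>
    ⟨⟨hn g hg e he.1.1, mem_cent_one.1 (hn.cent_one g hg e (mem_cent_one.2 he.1.2))⟩,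
      he.2.1.cj c.scal (c.agam hg), cj_ne_zero he.2.2⟩
  have hf : P f := ⟨⟨f1, f2⟩, ⟨hA f1, f3, f4⟩, f0⟩
  let D := (Set.toFinite {e | P e ∧ ∀ f, P f → rk e ≤ rk f}).toFinset
  have hD : ∀ {e}, e ∈ D ↔ P e ∧ ∀ f, P f → rk e ≤ rk f := Set.Finite.mem_toFinset _
  have ho : Orth S Z D := ⟨fun e he => (hD.1 he).1.2.1, fun e he => (hD.1 he).1.2.2,
    fun e he e' he' hne => by_contra fun h0 => by
      obtain ⟨⟨a1, a2, -⟩, a4⟩ := hD.1 he
      obtain ⟨⟨b1, b2, -⟩, b4⟩ := hD.1 he'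
      have h2 := a1.2 e' b1.1
      have h3 : P (e * e') := ⟨⟨mul_mem a1.1 b1.1, fun d hd => by
        rw [mul_assoc, b1.2 d hd, ← mul_assoc, a1.2 d hd, mul_assoc]⟩, a2.mul b2 h2, h0⟩
      exact hne ((a2.eq_of_le h3.2.1 (by rw [← mul_assoc, a2.idem]) (a4 _ h3)).symm.trans
        (b2.eq_of_le h3.2.1 (by rw [h2, ← mul_assoc, b2.idem]) (b4 _ h3)))⟩
  have hi : Inv a D := fun g hg e he => hD.2 ⟨hP g hg e (hD.1 he).1, fun f hf =>
    (rk_cj g (ho.si e he).idem).trans_le ((hD.1 he).2 f hf)⟩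
  obtain ⟨e, he, hm⟩ := Set.exists_min_image {e | P e} rk (Set.toFinite _) ⟨f, hf⟩
  have h2 := Ctx.sum_eq_one ⟨c.scal, c.gam, c.top, c.hairy, c.le, c.irr, c.abs⟩ ho
    ⟨e, hD.2 ⟨he, hm⟩⟩ hi
  have h3 := c.pure D ⟨fun e he => (ho.si e he).mem, ho.ne, fun e he => (ho.si e he).symm,
    fun e he => (ho.si e he).idem, ho.orth, h2⟩ hi
  rw [Finset.eq_singleton_iff_unique_mem.2 ⟨hD.2 ⟨he, hm⟩, fun x hx =>
    Finset.card_le_one.1 h3 x hx e (hD.2 ⟨he, hm⟩)⟩, Finset.sum_singleton] at h2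
  subst h2
  exact he.2.1.eq_of_le hf.2.1 (one_mul f) (hm f hf)

theorem ctr : ∀ x ∈ M, Cm1 M x → x ∈ Z := fun x hx hc => by
  have h := c.simp h1 hA hs hn
  have hE := EE_le c.nomod
  have := perfect_le_cR (C := S.ctr M 1) h.toLoc.ctr (fun x hx d hd => hx.2.2.2 d hd.1)
    (fun x hx => (c.id hA h1 hn).red h1 hx.1 hx.2.2.2) (fun x hx h2 h3 =>
      let ⟨w, h4, h5, h6⟩ := simp_inv h hx.1 hx.2.2.2 h2 h3
      ⟨w, ⟨h4, mem_cent_one.2 h5⟩, h6⟩) (EE_perfect c.nomod) ((hn.inf hn.cent_one).mono hE)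
    fun g hg x hx => gam_st c.scal (c.agam (hE hg)) (hA hx.1)
  exact c.abs x (hA hx) fun g hg => this hg x ⟨hx, mem_cent_one.2 hc⟩

theorem half (hZ : Z ≤ M) (h0 : ed M (EE H a) ≠ ⊥) (h0' : ed (S.cent M 1) (EE H a) ≠ ⊥)
    (hb : a = b ⊓ nR M) (hM : M ≠ S.cent Z 1) : ⁅ed M (EE H a), ed M (EE H a)⁆ ≤ H := by
  have hE := EE_le c.nomod
  have hU : ∀ {M : S.NR}, (1 : S.E) ∈ M → M ≤ S.cent Z 1 → (∀ x ∈ M, S.st x ∈ M) → S.NmR a M →
      ed M (EE H a) ≠ ⊥ → ed M (EE H a) ≤ UU S ∧ S.fixV (ed M (EE H a)) = ⊥ :=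
    fun h1 hA hs hn h0 =>
      have h := ed_le_UU c.scal h1 hA hs (c.ctr h1 hA hs hn) (c.E_iso.trans (iso_le_UU _))
        (hn.mono hE)
      ⟨h, c.fixU h ((ed_le _ _).trans (closure_mono fun _ hg => hA hg))
        (nm_ed h1 (hn.mono hE) (Nm.of_le le_rfl)) h0⟩
  have hs' := fun x => st_mem_cent (J := M) (x := x) hs S.st_one
  obtain ⟨u1, u2⟩ := hU h1 hA hs hn h0
  obtain ⟨u3, u4⟩ := hU (one_mem_cent M) (cent_anti hZ 1) hs' hn.cent_one h0'
  have h2 : ed M (EE H a) ≤ S.iso M := fun u hu => by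
    refine mem_iso.2 ⟨sub_mem ((mem_sca h1).1 (ed_le _ _ hu)) h1, u1 hu, fun v => ?_⟩
    by_cases ho : S.orth
    swap
    · rw [(S.alt ho _).1, (S.alt ho _).1]
    obtain ⟨μ, hμ⟩ := qtrick ho (c.ss (cent_anti hZ 1) (one_mem_cent M) hn.cent_one)
      (one_mem_cent M) hs' u1 (fun g hg d hd => (hd.2.2 _ ((mem_sca h1).1 (ed_le _ _ hg))).symm)
      u3 (ed_le _ _) u4
    have h3 : ∀ x y, S.q (x + y) - μ (x + y) = S.q x - μ x + (S.q y - μ y) + S.β x y :=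
      fun x y => by rw [S.q_add ho, map_add]; ring
    have key : ∀ {X : Subgroup S.Eˣ} {q : V → ZMod p}, X ≤ UU S → S.fixV X = ⊥ →
        (∀ x y, q (x + y) = q x + q y + S.β x y) → (∀ g ∈ X, ∀ v, q (g.1 v) = q v) →
        (∀ g ∈ X, ∀ v, S.q (g.1 v) - μ (g.1 v) = S.q v - μ v) → ∀ v, q v = S.q v - μ v :=
      fun {X q} x1 x2 x3 x4 x5 => congrFun (q_unique (S := S) (X := {x | ∃ g ∈ X, x = g.1})
        (by rintro _ ⟨g, hg, rfl⟩; exact x1 hg) (fun v h => x2.le fun g hg => h _ ⟨g, hg, rfl⟩)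
        x3 h3 (by rintro _ ⟨g, hg, rfl⟩; exact x4 g hg) (by rintro _ ⟨g, hg, rfl⟩; exact x5 g hg))
    have h4 := key (c.E_iso.trans (iso_le_UU _)) c.fix (S.q_add ho) (fun g hg => iso_q (c.E_iso hg))
      fun g hg => key (q := fun v => S.q (g.1 v) - μ (g.1 v)) u1 u2
        (fun x y => by rw [map_add, h3, iso_β (c.E_iso hg)]) (fun w hw v => by
          simpa using hμ _ (nm_ed h1 (hn.mono hE) (Nm.of_le le_rfl) g hg w hw) (g.1 v)) hμ
    rw [h4, hμ u hu, ← h4]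
  refine (le_inf ((commutator_le_self _).trans h2) ((commutator_mono h2 h2).trans
    (om_mono hA))).trans ((le_or_EE_le c.nomod ?_ ?_).resolve_right fun e => hM (le_antisymm hA
      (c.ful.trans ((spanR_le_iff h1).2 (e.trans (inf_le_left.trans (iso_le_sca h1)))))))
  · exact hb.ge.trans' (inf_le_inf c.omb ((nmR_sca h1).mono (iso_le_sca h1)).le_nR
      |>.trans' (inf_comm _ _).le)
  · exact Nm.inf (fun g hg k hk => gam_conj_iso c.scal (c.agam hg) hA (hn g hg) hk)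
      ((nm_gam_om c.scal).mono c.agam)

theorem cent_cent : S.cent (S.cent M 1) 1 = M := (c.ss hA h1 hn).cent_cent h1

theorem le_sup (hZ : Z ≤ M) : S.cent Z 1 ≤ S.cent M 1 ⊔ M := fun _ hx =>
  (c.ss (sup_le (cent_anti hZ 1) hA) (msr h1) (hn.cent_one.sup' hn)).dc (msr h1) fun d hd =>
    hx.2.2 d (c.ctr h1 hA hs hn d ((c.cent_cent h1 hA hs hn).le (mem_cent_one.2
      (hd.mono le_sup_left))) (hd.mono le_sup_right))

end

/-- The only invariant subrings between `Z` and `A` are `Z` and `A`. -/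
theorem lemM (hZ : Z ≤ M) (hA : M ≤ S.cent Z 1) (hs : ∀ x ∈ M, S.st x ∈ M) (hn : S.NmR a M) :
    M ≤ Z ∨ M = S.cent Z 1 := by
  by_contra hc
  push Not at hc
  have h1 := hZ c.scal.mem
  have c := c.up (le_inf c.le hn.le_nR) inf_le_left
  replace hn : S.NmR (b ⊓ nR M) M := nmR_iff.2 inf_le_right
  have hE := EE_le c.nomod
  have hcc := c.cent_cent h1 hA hs hn
  have hA' := cent_anti hZ 1
  have hs' := fun x => st_mem_cent (J := M) (x := x) hs S.st_one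
  have hM' : S.cent M 1 ≠ S.cent Z 1 := fun e => hc.1 fun x hx =>
    c.ctrA fun d hd => ((e.ge hd).2.2 x hx).symm
  have hcm : Cm (S.sca M) (S.sca (S.cent M 1)) := (cm_sca h1).mono le_rfl fun g hg =>
    mem_cent_one.1 ((mem_sca (one_mem_cent M)).1 hg)
  have h2 : EE H (b ⊓ nR M) ≤ ed M (EE H (b ⊓ nR M)) ⊔ ed (S.cent M 1) (EE H (b ⊓ nR M)) := by
    have : EE H (b ⊓ nR M) ≤ pj M (EE H (b ⊓ nR M)) ⊔ pj (S.cent M 1) (EE H (b ⊓ nR M)) :=
      fun g hg => by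
        obtain ⟨u, h2, h3⟩ := exists_pj (c.id hA h1 hn) h1 hg
          (c.le_sup h1 hA hs hn hZ (c.R_le (val_mem_spanR hg))) (hn.mono hE)
        rw [← mul_inv_cancel_right g u]
        exact mul_mem (mem_sup_right ⟨(mem_sca (one_mem_cent M)).2 (mem_cent_one.2 h3),
          mul_mem (mem_sup_left hg) (mem_sup_right fun d hd =>
            (hd.2.2 _ ((mem_sca h1).1 h2.1)).symm)⟩) (mem_sup_left (inv_mem h2))
    exact (EE_perfect c.nomod).trans ((commutator_mono this this).trans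
      (P183WA.comm_sup_le (hcm.mono inf_le_left inf_le_left)))
  have h3 : ed M (EE H (b ⊓ nR M)) ≠ ⊥ := fun e => hM' (le_antisymm hA' (c.ful.trans
    ((spanR_le_iff (one_mem_cent M)).2 (h2.trans (sup_le (e.le.trans bot_le) (ed_le _ _))))))
  have h4 : ed (S.cent M 1) (EE H (b ⊓ nR M)) ≠ ⊥ := fun e => hc.2 (le_antisymm hA (c.ful.trans
    ((spanR_le_iff h1).2 (h2.trans (sup_le (ed_le _ _) (e.le.trans bot_le))))))
  refine EE_nle c.nomod ((EE_perfect c.nomod).trans ((commutator_mono h2 h2).trans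
    ((P183WA.comm_sup_le (hcm.mono (ed_le _ _) (ed_le _ _))).trans (sup_le
      (c.half h1 hA hs hn hZ h3 h4 rfl hc.2) (c.half (one_mem_cent M) hA' hs' hn.cent_one
        (fun z hz => mem_cent_one.2 (c.cmZ hA z hz)) h4 (hcc.symm ▸ h3) ?_ hM')))))
  exact congrArg _ (le_antisymm (nmR_nR M).cent_one.le_nR
    ((nmR_nR _).cent_one.le_nR.trans (congrArg nR hcc).le))

end C5

end Vale.Agent.P183W5
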