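import Vale.Agent.P183W5.Bim
import Vale.Agent.P183W5.Defs
import Vale.Agent.P183NC.NR
import Vale.Agent.P183CF.CB3
import Mathlib.RingTheory.IntegralDomain

/-!
Semisimple unital subrings of the endomorphism ring of a form space.
-/

namespace Vale.Agent.P183W5

open Subgroup Vale.Agent.P183A Vale.Agent.P183NK Vale.Agent.P183NK.FS

variable {p : ℕ} [Fact p.Prime] {V : Type} [AddCommGroup V] [Module (ZMod p) V] {S : FS p V}
  {J Z : S.NR}

/-- Every `J`-invariant subgroup is the image of an idempotent that commutes with `J`. -/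
def SS (J : S.NR) : Prop := ∀ U : AddSubgroup V, (∀ x ∈ J, ∀ v ∈ U, x v ∈ U) →
  ∃ e : S.E, e * e = e ∧ Cm1 J e ∧ ∀ v, v ∈ U ↔ e v = v

theorem SS.semisimple (h : SS J) (h1 : (1 : S.E) ∈ J) : IsSemisimpleModule (J.toSubring h1) V := by
  refine (isSemisimpleModule_iff _ _).2 ⟨fun U => ?_⟩
  obtain ⟨e, he, hc, hU⟩ := h U.toAddSubgroup fun x hx v hv => U.smul_mem ⟨x, hx⟩ hv
  refine ⟨{ (LinearMap.ker e).toAddSubgroup with smul_mem' := fun x v hv => ?_ },
    disjoint_iff.2 (le_bot_iff.1 fun v hv => ((hU v).1 hv.1).symm.trans hv.2),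
    codisjoint_iff.2 (top_le_iff.1 fun v _ => ?_)⟩
  · change e (x.1 v) = 0
    rw [← Module.End.mul_apply, hc _ x.2, Module.End.mul_apply, show e v = 0 from hv, map_zero]
  · rw [← add_sub_cancel (e v) v]
    refine Submodule.add_mem_sup ((hU _).2 (idem_app he v)) ?_
    change e (v - e v) = 0
    rw [map_sub, idem_app he, sub_self]

theorem ss_of_semisimple (h1 : (1 : S.E) ∈ J) (h : IsSemisimpleModule (J.toSubring h1) V) :
    SS J := fun U hU => by
  let Q : Submodule (J.toSubring h1) V := { U with smul_mem' := fun x v hv => hU x x.2 v hv }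
  obtain ⟨Q', hQ⟩ := exists_isCompl Q
  let e := Q.projection Q' hQ
  refine ⟨e.toAddMonoidHom.toZModLinearMap p, LinearMap.ext fun v => ?_,
    fun d hd => LinearMap.ext fun v => e.map_smul ⟨d, hd⟩ v, fun v => ⟨fun hv => ?_, fun hv => ?_⟩⟩
  · exact Submodule.projection_apply_left hQ ⟨_, Submodule.projection_apply_mem hQ v⟩
  · exact Submodule.projection_apply_left hQ ⟨v, hv⟩
  · rw [← hv]
    exact Submodule.projection_apply_mem hQ v

/-- `φ` normalises `J`. -/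
def Nr (J : S.NR) (φ : S.E) : Prop :=
  (∀ r ∈ J, ∃ r' ∈ J, r * φ = φ * r') ∧ ∀ r' ∈ J, ∃ r ∈ J, r * φ = φ * r'

theorem Cm1.nr {φ : S.E} (h : Cm1 J φ) : Nr J φ :=
  ⟨fun r hr => ⟨r, hr, (h r hr).symm⟩, fun r hr => ⟨r, hr, (h r hr).symm⟩⟩

theorem nr_of_nmR {X : Subgroup S.Eˣ} (h : S.NmR X J) {g : S.Eˣ} (hg : g ∈ X) : Nr J g.1 :=
  ⟨fun r hr => ⟨_, h _ (inv_mem hg) r hr, by simp [mul_assoc]⟩,
    fun r hr => ⟨_, h _ hg r hr, by simp [mul_assoc]⟩⟩

variable [Finite V]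

/-- Clifford's argument. -/
theorem ss_of (h1 : (1 : S.E) ∈ J) (h : ∀ U : AddSubgroup V, (∀ x ∈ J, ∀ v ∈ U, x v ∈ U) →
    (∀ φ, Nr J φ → ∀ v ∈ U, φ v ∈ U) → ∃ z : S.E, z * z = z ∧ Cm1 J z ∧ ∀ v, v ∈ U ↔ z v = v) :
    SS J := by
  refine ss_of_semisimple h1 (IsSemisimpleModule.of_sSup_simples_eq_top ?_)
  simp only [isSimpleModule_iff_isAtom]
  set M := sSup {m : Submodule (J.toSubring h1) V | IsAtom m} with hM
  obtain ⟨z, hz, hc, hU⟩ := h M.toAddSubgroup (fun x hx v hv => M.smul_mem ⟨x, hx⟩ hv) (by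
    intro φ hφ v hv
    let pre : Submodule (J.toSubring h1) V → Submodule (J.toSubring h1) V := fun W =>
      { W.toAddSubgroup.comap φ.toAddMonoidHom with
        smul_mem' := fun x v hv => by
          obtain ⟨r, hr, e⟩ := hφ.2 x x.2
          change φ (x.1 v) ∈ W
          rw [← Module.End.mul_apply, ← e]
          exact W.smul_mem ⟨r, hr⟩ hv }
    refine (show M ≤ pre M from sSup_le fun m hm => ?_) hv
    let W : Submodule (J.toSubring h1) V :=
      { m.toAddSubgroup.map φ.toAddMonoidHom with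
        smul_mem' := by
          rintro x _ ⟨v, hv, rfl⟩
          obtain ⟨r, hr, e⟩ := hφ.1 x x.2
          exact ⟨r v, m.smul_mem ⟨r, hr⟩ hv, (congrArg (fun f : S.E => f v) e).symm⟩ }
    have hW : W ≤ M := by
      by_cases e : W = ⊥
      · exact e.le.trans bot_le
      refine le_sSup ⟨e, fun W' hW' => ?_⟩
      rcases (inf_le_left (a := m) (b := pre W')).eq_or_lt with e' | e'
      · refine absurd ?_ hW'.not_ge
        rintro _ ⟨v, hv, rfl⟩
        exact (e'.ge hv).2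
      · refine le_bot_iff.1 fun w hw => ?_
        obtain ⟨v, hv, rfl⟩ := hW'.le hw
        rw [show v = 0 from (hm.2 _ e').le ⟨hv, hw⟩]
        exact map_zero _
    exact fun v hv => hW ⟨v, hv, rfl⟩)
  let Q : Submodule (J.toSubring h1) V :=
    { (LinearMap.ker z).toAddSubgroup with
      smul_mem' := fun x v hv => by
        change z (x.1 v) = 0
        rw [← Module.End.mul_apply, hc _ x.2, Module.End.mul_apply, show z v = 0 from hv, map_zero] }
  have : Finite (Submodule (J.toSubring h1) V) :=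
    Finite.of_injective (fun W : Submodule (J.toSubring h1) V => (W : Set V)) SetLike.coe_injective
  rcases eq_bot_or_exists_atom_le Q with e | ⟨m, hm, hle⟩
  · refine top_le_iff.1 fun v _ => (hU v).2 ?_
    have : v - z v ∈ Q := by
      change z (v - z v) = 0
      rw [map_sub, idem_app hz, sub_self]
    rw [e] at this
    exact (sub_eq_zero.1 this).symm
  · exact absurd (le_bot_iff.1 fun v hv => ((hU v).1 (le_sSup (s := {m | IsAtom m}) hm hv)).symm.trans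
      (hle hv)) hm.1

theorem Irr.ss {a : Subgroup S.Eˣ} (h : S.Irr Z a) (hJ : J ≤ S.cent Z 1) (h1 : (1 : S.E) ∈ J)
    (hn : S.NmR a J) : SS J := by
  have hz : ∀ z ∈ Z, Cm1 J z := fun z hz d hd => ((hJ hd).2.2 z hz).symm
  refine ss_of h1 fun U _ hU => ?_
  obtain ⟨z, h2, h3, h4⟩ := h U (fun z h2 => hU z (hz z h2).nr) fun g hg => hU _ (nr_of_nmR hn hg)
  exact ⟨z, h3, hz z h2, h4⟩

/-- A tensor factor of a semisimple ring is semisimple. -/
theorem SS.factor {A K : S.NR} (h : SS A) (h1 : (1 : S.E) ∈ J) (hJ : J ≤ A) (hK : ∀ k ∈ K, Cm1 J k)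
    (hA : A ≤ K ⊔ J) : SS J := by
  refine ss_of h1 fun U h2 h3 => ?_
  let Q : S.NR :=
    { carrier := {x | ∀ v ∈ U, x v ∈ U}
      add_mem' := fun ha hb v hv => U.add_mem (ha v hv) (hb v hv)
      zero_mem' := fun _ _ => U.zero_mem
      mul_mem' := fun ha hb v hv => ha _ (hb v hv)
      neg_mem' := fun ha v hv => U.neg_mem (ha v hv) }
  have hQ : K ⊔ J ≤ Q := sup_le (fun k hk => h3 k (hK k hk).nr) h2
  obtain ⟨z, h4, h5, h6⟩ := h U fun x hx => hQ (hA hx)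
  exact ⟨z, h4, fun d hd => h5 d (hJ hd), h6⟩

/-- The double centraliser theorem. -/
theorem SS.dc (h : SS J) (h1 : (1 : S.E) ∈ J) {x : S.E} (hx : ∀ c, Cm1 J c → x * c = c * x) :
    x ∈ J := by
  have := h.semisimple h1
  have := Fintype.ofFinite V
  let f : Module.End (Module.End (J.toSubring h1) V) V :=
    { toFun := x
      map_add' := x.map_add
      map_smul' := fun c v => congrArg (fun f : S.E => f v)
        (hx (c.toAddMonoidHom.toZModLinearMap p) fun d hd =>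
          LinearMap.ext fun v => c.map_smul ⟨d, hd⟩ v) }
  obtain ⟨r, hr⟩ := jacobson_density f Finset.univ
  rw [show x = r.1 from LinearMap.ext fun v => hr v (Finset.mem_univ v)]
  exact r.2

theorem SS.cent_cent (h : SS J) (h1 : (1 : S.E) ∈ J) : S.cent (S.cent J 1) 1 = J :=
  le_antisymm (fun _ hx => h.dc h1 fun c hc => hx.2.2 c (mem_cent_one.2 hc))
    fun _ hx => mem_cent_one.2 fun _ hd => (hd.2.2 _ hx).symm

theorem SS.lideal (h : SS J) (h1 : (1 : S.E) ∈ J) (L : AddSubgroup S.E) (hL : ∀ x ∈ L, x ∈ J)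
    (hl : ∀ r ∈ J, ∀ x ∈ L, r * x ∈ L) : ∃ e ∈ L, ∀ x ∈ L, x * e = x := by
  have := h.semisimple h1
  have : IsSemisimpleRing (J.toSubring h1) := IsSemisimpleModule.of_injective
    (LinearMap.pi fun v : V => LinearMap.toSpanSingleton (J.toSubring h1) V v)
    fun x y e => Subtype.ext (LinearMap.ext fun v => congrFun e v)
  obtain ⟨e, he, h2⟩ := IsSemisimpleRing.ideal_eq_span_idempotent
    ({ L.comap (J.toSubring h1).subtype.toAddMonoidHom with
      smul_mem' := fun r x hx => hl r r.2 x hx } : Ideal (J.toSubring h1))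
  refine ⟨e.1, h2.ge (Ideal.mem_span_singleton_self e), fun x hx => ?_⟩
  obtain ⟨r, hr⟩ := Ideal.mem_span_singleton'.1 (h2.le (show (⟨x, hL x hx⟩ : J.toSubring h1) ∈ _
    from hx))
  rw [show x = r.1 * e.1 from (congrArg Subtype.val hr).symm, mul_assoc,
    show e.1 * e.1 = e.1 from congrArg Subtype.val he]

theorem SS.id (h : SS J) (h1 : (1 : S.E) ∈ J) : ID J := fun L hL hl => by
  obtain ⟨e, he, h2⟩ := h.lideal h1 L hL fun r hr x hx => (hl r hr x hx).1
  refine ⟨e, he, fun x hx => ⟨?_, h2 x hx⟩⟩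
  have hy : x - e * x ∈ L := L.sub_mem hx (hl _ (hL x hx) e he).2
  obtain ⟨_, ⟨r, hr, rfl⟩, h3⟩ := h.lideal h1
    (J.toAddSubgroup.map (AddMonoidHom.mulRight (x - e * x)))
    (by rintro _ ⟨r, hr, rfl⟩; exact J.mul_mem hr (hL _ hy))
    (by rintro s hs _ ⟨r, hr, rfl⟩; exact ⟨s * r, J.mul_mem hs hr, mul_assoc _ _ _⟩)
  have h4 : (x - e * x) * (r * (x - e * x)) = x - e * x := by
    simpa using h3 _ ⟨1, h1, rfl⟩
  have h5 := h2 _ (hl r hr _ hy).2
  rw [← mul_assoc, ← h5, mul_assoc, mul_sub e, ← mul_assoc e, h2 e he, sub_self, mul_zero] at h4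
  exact (sub_eq_zero.1 h4.symm).symm

omit [Finite V] in
theorem simp_of (h : ID J) (hl : S.Loc J 1)
    (he : ∀ e ∈ J, Cm1 J e → S.st e = e → e * e = e → e = 0 ∨ e = 1) : S.Simp J 1 := by
  refine ⟨hl, fun R h1 h2 h3 => ?_⟩
  obtain ⟨e, h4, h5, h6, h7⟩ := h.ex R.toAddSubgroup h1 fun r hr x hx => (h3 x hx r hr).symm
  have h8 : S.st e = e := by
    have := (h7 _ (h2 e h4)).1
    rw [← this, ← S.st_st (e * S.st e), st_mul, st_st, this, st_st]
  rcases he e (h1 h4) h6 h8 h5 with e0 | e0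
  · exact Or.inl (le_bot_iff.1 fun x hx => by rw [← (h7 x hx).1, e0, zero_mul]; exact zero_mem _)
  · exact Or.inr (le_antisymm h1 fun x hx => by simpa [e0] using (h3 e h4 x hx).1)

omit [Finite V] in
theorem ID.central {z : S.E} (h : ID J) (h1 : (1 : S.E) ∈ J) (hz : z ∈ J) (hc : Cm1 J z) :
    ∃ w ∈ J, z * w * z = z ∧ z * w * (z * w) = z * w ∧ Cm1 J (z * w) := by
  obtain ⟨_, ⟨w, hw, rfl⟩, h2, h3, h4⟩ := h.ex (J.toAddSubgroup.map (AddMonoidHom.mulLeft z))
    (by rintro _ ⟨r, hr, rfl⟩; exact J.mul_mem hz hr) (by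
      rintro s hs _ ⟨r, hr, rfl⟩
      refine ⟨⟨s * r, J.mul_mem hs hr, ?_⟩, ⟨r * s, J.mul_mem hr hs, (mul_assoc _ _ _).symm⟩⟩
      change z * (s * r) = s * (z * r)
      rw [← mul_assoc, hc s hs, mul_assoc])
  exact ⟨w, hw, (h4 z ⟨1, h1, mul_one z⟩).1, h2, h3⟩

omit [Finite V] in
theorem ID.red {z : S.E} (h : ID J) (h1 : (1 : S.E) ∈ J) (hz : z ∈ J) (hc : Cm1 J z)
    (h0 : z * z = 0) : z = 0 := by
  obtain ⟨w, hw, h2, -⟩ := h.central h1 hz hc
  rw [← h2, mul_assoc, ← hc w hw, ← mul_assoc, h0, zero_mul]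

omit [Finite V] in
theorem simp_inv (h : S.Simp J 1) {z : S.E} (hz : z ∈ J) (hc : Cm1 J z) (hs : S.st z = z)
    (h0 : z ≠ 0) : ∃ w ∈ J, Cm1 J w ∧ z * w = 1 := by
  let R : S.NR :=
    { toAddSubgroup := J.toAddSubgroup.map (AddMonoidHom.mulLeft z)
      mul_mem' := by
        rintro _ _ ⟨r, hr, rfl⟩ ⟨s, hs, rfl⟩
        exact ⟨r * (z * s), J.mul_mem hr (J.mul_mem hz hs), (mul_assoc _ _ _).symm⟩ }
  rcases h.simple R (by rintro _ ⟨r, hr, rfl⟩; exact J.mul_mem hz hr) (by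
    rintro _ ⟨r, hr, rfl⟩
    refine ⟨_, h.star r hr, ?_⟩
    change z * _ = S.st (z * r)
    rw [st_mul, hs, hc _ (h.star r hr)]) (by
    rintro _ ⟨r, hr, rfl⟩ s hs
    refine ⟨⟨r * s, J.mul_mem hr hs, (mul_assoc _ _ _).symm⟩, ⟨s * r, J.mul_mem hs hr, ?_⟩⟩
    change z * (s * r) = s * (z * r)
    rw [← mul_assoc, hc s hs, mul_assoc]) with e | e
  · exact absurd (NonUnitalSubring.mem_bot.1 (e.le ⟨1, h.mem, mul_one z⟩)) h0
  · obtain ⟨w, hw, ew⟩ := e.ge h.mem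
    change z * w = 1 at ew
    refine ⟨w, hw, fun d hd => ?_, ew⟩
    rw [← mul_one (w * d), ← ew, mul_assoc, ← mul_assoc d, ← hc d hd, ← mul_assoc, ← mul_assoc,
      ← hc w hw, ew, one_mul]

/-- The centraliser of a subring in the group of units. -/
def cR (J : S.NR) : Subgroup S.Eˣ where
  carrier := {g | Cm1 J g.1}
  one_mem' := fun d _ => by simp
  mul_mem' := fun {a b} ha hb d hd => by
    rw [Units.val_mul, mul_assoc, hb d hd, ← mul_assoc, ha d hd, mul_assoc]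
  inv_mem' := fun {a} ha d hd => by
    rw [Units.inv_mul_eq_iff_eq_mul, ← mul_assoc, ha d hd, Units.mul_inv_cancel_right]

omit [Finite V] in
theorem comm_le_cR {X : Subgroup S.Eˣ} (hn : S.NmR X J) (h : ∀ g ∈ X, ∀ k ∈ X, ∀ x ∈ J,
    g.1 * (k.1 * x * k⁻¹.1) * g⁻¹.1 = k.1 * (g.1 * x * g⁻¹.1) * k⁻¹.1) : ⁅X, X⁆ ≤ cR J :=
  commutator_le.2 fun g hg k hk x hx => by
    have := h g hg k hk _ (hn _ (inv_mem hg) _ (hn _ (inv_mem hk) x hx))
    have h2 := congrArg (· * (g.1 * k.1 * g⁻¹.1 * k⁻¹.1)) this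
    simpa [commutatorElement_def, mul_assoc] using h2

/-- A perfect group that normalises a ring of scalars centralises it. -/
theorem perfect_le_cR {C : S.NR} {X : Subgroup S.Eˣ} (hl : S.Loc C 1)
    (hc : ∀ x ∈ C, Cm1 C x) (hr : ∀ x ∈ C, x * x = 0 → x = 0)
    (hi : ∀ x ∈ C, S.st x = x → x ≠ 0 → ∃ y ∈ C, x * y = 1) (hp : X ≤ ⁅X, X⁆) (hn : S.NmR X C)
    (hs : ∀ g ∈ X, ∀ x ∈ C, S.st (g.1 * x * g⁻¹.1) = g.1 * S.st x * g⁻¹.1) : X ≤ cR C := by
  have hm : ∀ {x}, x ∈ S.sym C ↔ x ∈ C ∧ S.st x = x :=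
    ⟨fun hx => ⟨hx.1, hx.2.1⟩, fun hx => ⟨hx.1, hx.2, hc _ hx.1⟩⟩
  have hn' : S.NmR X (S.sym C) := fun g hg x hx =>
    hm.2 ⟨hn g hg x hx.1, by rw [hs g hg x hx.1, hx.2.1]⟩
  have h1 : X ≤ cR (S.sym C) := by
    refine hp.trans (comm_le_cR hn' fun g hg k hk x hx => ?_)
    let F := (S.sym C).toSubring (hm.2 ⟨hl.mem, S.st_one⟩)
    let _ : CommRing F := { (inferInstance : Ring F) with
      mul_comm := fun x y => Subtype.ext (x.2.2.2 y y.2.1) }
    have : Nontrivial F := ⟨1, 0, fun e => hl.ne (congrArg Subtype.val e)⟩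
    have hu : ∀ y : F, y ≠ 0 → IsUnit y := fun y hy => by
      obtain ⟨w, hw, e⟩ := hi y y.2.1 y.2.2.1 fun e => hy (Subtype.ext e)
      refine IsUnit.of_mul_eq_one ⟨w, hm.2 ⟨hw, ?_⟩⟩ (Subtype.ext e)
      have := congrArg S.st e
      rw [st_mul, y.2.2.1, st_one] at this
      rw [← mul_one (S.st w), ← e, ← mul_assoc, this, one_mul]
    have : NoZeroDivisors F := ⟨fun {x y} e => by
      by_contra c
      push Not at c
      exact c.2 ((hu x c.1).mul_right_eq_zero.1 e)⟩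
    have : IsDomain F := NoZeroDivisors.to_isDomain F
    obtain ⟨ζ, hζ⟩ := IsCyclic.exists_monoid_generator (α := Fˣ)
    have key : ∀ y ∈ S.sym C, y ≠ 0 → ∃ n : ℕ, y = ζ.1.1 ^ n := fun y hy h0 => by
      obtain ⟨u, hu⟩ := hu ⟨y, hy⟩ fun e => h0 (congrArg Subtype.val e)
      obtain ⟨n, hn⟩ := hζ u
      exact ⟨n, by rw [← show u.1.1 = y from congrArg Subtype.val hu, ← hn]; simp⟩
    have hpow : ∀ (g : S.Eˣ) (y : S.E) (n : ℕ), g.1 * y ^ n * g⁻¹.1 = (g.1 * y * g⁻¹.1) ^ n :=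
      fun g y n => (Units.conj_pow g y n).symm
    have hz : ∀ g ∈ X, ∃ n : ℕ, g.1 * ζ.1.1 * g⁻¹.1 = ζ.1.1 ^ n := fun g hg =>
      key _ (hn' g hg _ ζ.1.2) (by simp)
    by_cases h0 : x = 0
    · simp [h0]
    obtain ⟨n, rfl⟩ := key x hx h0
    obtain ⟨i, ei⟩ := hz g hg
    obtain ⟨j, ej⟩ := hz k hk
    simp only [hpow, ei, ej, ← pow_mul, mul_comm, mul_left_comm]
  have h2 : ∀ g ∈ X, ∀ x ∈ C, g.1 * x * g⁻¹.1 = x ∨ g.1 * x * g⁻¹.1 = S.st x := by
    intro g hg x hx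
    have hx' := hl.star x hx
    have hy := hn g hg x hx
    have fix : ∀ s ∈ S.sym C, g.1 * s * g⁻¹.1 = s := fun s hs => by
      rw [h1 hg s hs, Units.mul_inv_cancel_right]
    have e1 := fix _ (hm.2 ⟨add_mem hx hx', by rw [st_add, st_st, add_comm]⟩)
    have e2 := fix _ (hm.2 ⟨mul_mem hx hx', by rw [st_mul, st_st]⟩)
    rw [mul_add, add_mul, ← hs g hg x hx] at e1
    rw [FS.conj_mul, ← hs g hg x hx] at e2
    generalize g.1 * x * g⁻¹.1 = y at hy e1 e2
    have e3 : S.st (y - x) = -(y - x) := by rw [st_sub, eq_sub_of_add_eq' e1]; abel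
    have e4 : (y - x) * (y - S.st x) = 0 := by
      rw [eq_sub_of_add_eq' e1] at e2
      have := hc y hy x hx
      linear_combination (norm := noncomm_ring) -e2 + this
    have hd := sub_mem hy hx
    by_cases e : (y - x) * (y - x) = 0
    · exact Or.inl (sub_eq_zero.1 (hr _ hd e))
    · obtain ⟨w, hw, ew⟩ := hi _ (mul_mem hd hd) (by rw [st_mul, e3, neg_mul_neg]) e
      refine Or.inr (sub_eq_zero.1 ?_)
      rw [← one_mul (y - S.st x), ← ew, hc _ (mul_mem hd hd) w hw, mul_assoc, mul_assoc, e4,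
        mul_zero, mul_zero]
  refine hp.trans (comm_le_cR hn fun g hg k hk x hx => ?_)
  rcases h2 g hg x hx with e | e <;> rcases h2 k hk x hx with e' | e' <;>
    simp only [e, e', ← hs g hg x hx, ← hs k hk x hx, st_st]

end Vale.Agent.P183W5
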