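import Vale.Agent.P183W5.Core

/-!
Invariant tensor decompositions.
-/

set_option linter.unusedSectionVars false

namespace Vale.Agent.P183W5

open Subgroup Vale.Agent.P183A Vale.Agent.P183NK Vale.Agent.P183NK.FS Vale.Agent.P183AL
open scoped commutatorElement

variable {p : ℕ} [Fact p.Prime] {V : Type} [AddCommGroup V] [Module (ZMod p) V] {S : FS p V}

/-- The ring generated by `Z` and `P`. -/
abbrev ZP (Z : S.NR) (P : Subgroup S.Eˣ) : S.NR := Z ⊔ S.spanR P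

/-- Conjugation by `g` maps `J` onto `J'`. -/
def Cj (g : S.Eˣ) (J J' : S.NR) : Prop := ∀ x, x ∈ J ↔ g.1 * x * g⁻¹.1 ∈ J'

/-- Two commuting groups of isometries that generate `A`. -/
structure TP (Z : S.NR) (W W' : Subgroup S.Eˣ) : Prop where
  iso : W ≤ S.iso (S.cent Z 1)
  iso' : W' ≤ S.iso (S.cent Z 1)
  cm : Cm W W'
  gen : S.cent Z 1 ≤ ZP Z W ⊔ ZP Z W'

/-- An invariant family of commuting groups of isometries. -/
structure TF (Z : S.NR) (H a : Subgroup S.Eˣ) (D : Set (Subgroup S.Eˣ)) : Prop where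
  iso : ∀ P ∈ D, P ≤ S.iso (S.cent Z 1)
  nle : ∀ P ∈ D, ¬ P ≤ S.sca Z
  cm : ∀ P ∈ D, ∀ P' ∈ D, P ≠ P' → Cm P P'
  inv : ∀ g ∈ a, ∀ P ∈ D, cnj g P ∈ D
  nm : ∀ P ∈ D, Nm (EE H a) P

variable {Z J J' J'' : S.NR} {n m k : ℕ} {H a b y W W' P P' P'' : Subgroup S.Eˣ} {g h : S.Eˣ}
  {D : Set (Subgroup S.Eˣ)} {x : S.E}

theorem Cj.mul (e : Cj g J' J'') (e' : Cj h J J') : Cj (g * h) J J'' := fun x => by
  rw [e' x, e]
  simp [mul_assoc]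

theorem Cj.inv (e : Cj g J J') : Cj g⁻¹ J' J := fun x => by
  rw [e]
  simp [mul_assoc]

theorem Cj.eq (e : Cj g J J') (e' : Cj g J J'') : J' = J'' :=
  NonUnitalSubring.ext fun x => (e.inv x).trans (e'.inv x).symm

/-- The stabiliser of a family of rings. -/
def St (Z : S.NR) (D : Set (Subgroup S.Eˣ)) : Subgroup S.Eˣ where
  carrier := {g | (∀ P ∈ D, ∃ P' ∈ D, Cj g (ZP Z P) (ZP Z P')) ∧
    ∀ P' ∈ D, ∃ P ∈ D, Cj g (ZP Z P) (ZP Z P')}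
  one_mem' := ⟨fun P h => ⟨P, h, fun _ => by simp⟩, fun P h => ⟨P, h, fun _ => by simp⟩⟩
  mul_mem' := fun e e' => ⟨fun P h =>
    let ⟨Q, h1, h2⟩ := e'.1 P h
    let ⟨R, h3, h4⟩ := e.1 Q h1
    ⟨R, h3, h4.mul h2⟩, fun P h =>
    let ⟨Q, h1, h2⟩ := e.2 P h
    let ⟨R, h3, h4⟩ := e'.2 Q h1
    ⟨R, h3, h2.mul h4⟩⟩
  inv_mem' := fun e => ⟨fun P h => (e.2 P h).imp fun _ h => ⟨h.1, h.2.inv⟩,
    fun P h => (e.1 P h).imp fun _ h => ⟨h.1, h.2.inv⟩⟩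

/-- The kernel of the action on the family. -/
def Kr (Z : S.NR) (D : Set (Subgroup S.Eˣ)) : Subgroup S.Eˣ := sInf {N | ∃ P ∈ D, N = nR (ZP Z P)}

theorem mem_Kr : g ∈ Kr Z D ↔ ∀ P ∈ D, Cj g (ZP Z P) (ZP Z P) :=
  mem_sInf.trans ⟨fun h P hP => h _ ⟨P, hP, rfl⟩, by rintro h _ ⟨P, hP, rfl⟩; exact h P hP⟩

theorem Kr_le : Kr Z D ≤ St Z D := fun _ h =>
  ⟨fun P hP => ⟨P, hP, mem_Kr.1 h P hP⟩, fun P hP => ⟨P, hP, mem_Kr.1 h P hP⟩⟩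

theorem nm_Kr : Nm (St Z D) (Kr Z D) := fun _ hg _ hk => mem_Kr.2 fun P hP =>
  let ⟨Q, h1, h2⟩ := hg.2 P hP
  (h2.mul (mem_Kr.1 hk Q h1)).mul h2.inv

theorem Cm1.sup (h : Cm1 J x) (h' : Cm1 J' x) : Cm1 (J ⊔ J') x := fun _ hd =>
  (sup_le (fun z hz => by simpa [NonUnitalSubring.mem_centralizer_iff] using h z hz)
    (fun z hz => by simpa [NonUnitalSubring.mem_centralizer_iff] using h' z hz) :
      _ ≤ NonUnitalSubring.centralizer {x}) hd x rfl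

theorem TP.symm (t : TP Z W W') : TP Z W' W := 
  ⟨t.iso', t.iso, t.cm.symm, t.gen.trans (sup_comm _ _).le⟩

variable [Finite V]

theorem ZP_le (hZ : S.Scal Z 1) (hW : W ≤ S.iso (S.cent Z 1)) : ZP Z W ≤ S.cent Z 1 :=
  sup_le hZ.le_cent (spanR_le.2 fun _ hg => iso_mem (one_mem_cent Z) (hW hg))

theorem ZP_st (hZ : S.Scal Z 1) (hW : W ≤ S.iso (S.cent Z 1)) : ∀ x ∈ ZP Z W, S.st x ∈ ZP Z W :=
  st_sup hZ.star (st_spanR fun _ hg => iso_uni (hW hg))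

theorem one_ZP (W : Subgroup S.Eˣ) : (1 : S.E) ∈ ZP Z W := msr (one_mem_spanR W)

theorem cm1_ZP (hZ : S.Scal Z 1) (hW : W ≤ S.iso (S.cent Z 1)) (hW' : W' ≤ S.iso (S.cent Z 1))
    (h : Cm W W') : ∀ x ∈ ZP Z W, Cm1 (ZP Z W') x := fun _ hx =>
  cm1_sup (ZP_le hZ hW hx) fun g hg => (cm1_sup (iso_mem (one_mem_cent Z) (hW' hg))
    (fun k hk => Units.ext_iff.1 (h.symm g hg k hk)) _ hx).symm

theorem cj_ZP (hZ : S.Scal Z 1) (hg : g ∈ S.gam Z) (P : Subgroup S.Eˣ) :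
    Cj g (ZP Z P) (ZP Z (cnj g P)) := by
  have key : ∀ g ∈ S.gam Z, ∀ P, ∀ x ∈ ZP Z P, g.1 * x * g⁻¹.1 ∈ ZP Z (cnj g P) := fun g hg P =>
    (sup_le (fun z hz => msl (gam_Z hZ hg hz)) (spanR_le.2 fun k hk => msr (val_mem_spanR
      (conj_mem_cnj.2 hk))) : _ ≤ (ZP Z (cnj g P)).comap (P183WD.cj g : S.E →ₙ+* S.E))
  refine fun x => ⟨key g hg P x, fun hx => ?_⟩
  simpa [cnj_inv_cnj, mul_assoc] using key _ (inv_mem hg) _ _ hx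

theorem cj_of_cm (h : Cm1 J g.1) : Cj g J J :=
  (NmR.le_nR (X := cR J) fun k hk x hx => by rwa [hk x hx, Units.mul_inv_cancel_right]) h

namespace C5

variable (c : C5 S Z n H a b)
include c

section
variable (t : TP Z W W')
include t

theorem tp_id : ID (ZP Z W) :=
  (c.ssA.factor (one_ZP W) (ZP_le c.scal t.iso) (cm1_ZP c.scal t.iso' t.iso t.cm.symm)
    t.symm.gen).id (one_ZP W)

theorem tp_ctr : ∀ x ∈ ZP Z W, Cm1 (ZP Z W) x → x ∈ Z := fun x hx h =>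
  c.ctrA ((h.sup (cm1_ZP c.scal t.iso t.iso' t.cm x hx)).mono t.gen)

theorem tp_mem (hx : x ∈ S.cent Z 1) (h : Cm1 (ZP Z W') x) : x ∈ ZP Z W :=
  (c.tp_id t.symm).tc2 (one_ZP W') (cm1_ZP c.scal t.iso t.iso' t.cm)
    (fun z hz h => msl (c.tp_ctr t.symm z hz h)) (t.gen hx) h

theorem tp_simp : S.Simp (ZP Z W) 1 ∧ S.ctr (ZP Z W) 1 = Z :=
  ⟨simp_of (c.tp_id t) ⟨one_ZP W, c.scal.ne, S.st_one, fun _ _ => one_mul _, fun _ _ => mul_one _,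
    ZP_st c.scal t.iso⟩ fun e he hc => c.scal.sym_idem (c.tp_ctr t e he hc),
    le_antisymm (fun x hx => c.tp_ctr t x hx.1 hx.2.2.2) fun z hz =>
      ⟨msl hz, mem_cent_one.2 (c.cmZ (ZP_le c.scal t.iso) z hz)⟩⟩

end

variable (t : TF Z H a D)
include t

theorem tp (hP : P ∈ D) : TP Z P (sSup (D \ {P})) := by
  refine ⟨t.iso P hP, sSup_le fun Q hQ => t.iso Q hQ.1,
    (Cm.sSup fun Q hQ => t.cm Q hQ.1 P hP hQ.2).symm, (c.full (sSup_le t.iso) (nm_sSup_of_cnj t.inv)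
      fun e => t.nle P hP ((le_sSup hP).trans e)).trans (sup_le (le_sup_left.trans le_sup_left)
        ((spanR_mono (sSup_le fun Q hQ => ?_)).trans ((spanR_sup _ _).trans
          (sup_le_sup le_sup_right le_sup_right))))⟩
  by_cases e : Q = P
  · exact e.le.trans le_sup_left
  · exact (le_sSup (show Q ∈ D \ {P} from ⟨hQ, e⟩)).trans le_sup_right

theorem eq_of_cm (hP : P ∈ D) (hW : W ≤ S.iso (S.cent Z 1)) (e : ZP Z P = ZP Z W) :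
    ¬ Cm P W := fun h => t.nle P hP fun _ hg => (mem_sca c.scal.mem).2 (c.tp_ctr (c.tp t hP) _
      (msr (val_mem_spanR hg)) (e ▸ cm1_ZP c.scal (t.iso P hP) hW h _ (msr (val_mem_spanR hg))))

theorem trans (hP : P ∈ D) (hP' : P' ∈ D) : ∃ g ∈ a, P' = cnj g P := by
  by_contra e
  have h : ∀ W ∈ orb a P, W ∈ D := by rintro _ ⟨g, hg, rfl⟩; exact t.inv g hg P hP
  exact t.nle P' hP' (c.le_sca (sSup_le fun W hW => t.iso W (h W hW)) (nm_orb a P)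
    (fun e => t.nle P hP ((le_orb a P).trans e)) (t.iso P' hP')
    (Cm.sSup fun W hW => t.cm W (h W hW) P' hP' fun e' => e (e' ▸ hW)).symm)

theorem le_St : a ≤ St Z D := fun g hg =>
  ⟨fun P hP => ⟨_, t.inv g hg P hP, cj_ZP c.scal (c.agam hg) P⟩, fun P hP =>
    ⟨_, t.inv _ (inv_mem hg) P hP, (cj_ZP c.scal (c.agam (inv_mem hg)) P).inv⟩⟩

theorem E_le_Kr (h1 : a ≤ y) (h2 : y ≤ b ⊓ St Z D) : EE H y ≤ Kr Z D := by
  have h3 := h2.trans inf_le_left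
  refine ((le_or_EE_le (c.hairy.nomod h1 h3) inf_le_left ((Nm.of_le le_rfl).inf
    (nm_Kr.mono (h2.trans inf_le_right)))).resolve_left fun e => EE_nle c.nomod
      ((le_inf ((EE_le c.nomod).trans h1) (le_sInf ?_)).trans e)).trans inf_le_right
  rintro _ ⟨P, hP, rfl⟩
  exact ((c.nmZ.mono (EE_le c.nomod)).sup' (nmR_spanR (t.nm P hP))).le_nR

theorem St_lt (hP : P ∈ D) (hP' : P' ∈ D) (e : P ≠ P') : b ⊓ St Z D < b := by
  refine lt_of_le_of_ne inf_le_left fun e' => ?_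
  have h := c.top.ge.trans ((c.E_le_Kr t c.le e'.ge).trans (sInf_le ⟨P, hP, rfl⟩))
  rcases c.inv _ (ZP_le c.scal (t.iso P hP)) (ZP_st c.scal (t.iso P hP)) (nmR_iff.2 h) with h | h
  · exact t.nle P hP ((spanR_le_iff c.scal.mem).1 (le_sup_right.trans h))
  · exact t.nle P' hP' fun g hg => (mem_sca c.scal.mem).2 (c.ctrA (h ▸ cm1_ZP c.scal (t.iso _ hP')
      (t.iso P hP) (t.cm _ hP' P hP e.symm) _ (msr (val_mem_spanR hg))))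

theorem flip (hF : FLIP) (hP : P ∈ D) (hP' : P' ∈ D) (hP'' : P'' ∈ D) (e : P ≠ P') (e' : P'' ≠ P)
    (e'' : P'' ≠ P') : ∃ g ∈ S.iso (S.cent Z 1) ⊓ St Z D, Cj g (ZP Z P) (ZP Z P') ∧
      Cj g (ZP Z P') (ZP Z P) ∧ Cj g (ZP Z P'') (ZP Z P'') := by
  obtain ⟨γ, h1, h2⟩ := c.trans t hP hP'
  obtain ⟨u, h3, h4, h5, h6⟩ := hF p V S Z _ _ c.scal (c.tp_simp (c.tp t hP)).1
    (c.tp_simp (c.tp t hP')).1 (c.tp_simp (c.tp t hP)).2 (c.tp_simp (c.tp t hP')).2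
    (fun x hx => mem_cent_one.2 (cm1_ZP c.scal (t.iso _ hP') (t.iso P hP) (t.cm _ hP' P hP e.symm)
      x hx)) ⟨γ, c.agam h1, h2 ▸ cj_ZP c.scal (c.agam h1) P⟩
  let g : S.Eˣ := ⟨u, u, h4, h4⟩
  have h7 : Cj g (ZP Z P) (ZP Z P') := h6
  have h8 : Cj g (ZP Z P') (ZP Z P) := h7.inv
  have h9 : ∀ Q ∈ D, Q ≠ P → Q ≠ P' → Cm1 (ZP Z Q) u := fun Q hQ q1 q2 => mem_cent_one.1
    ((sup_le (fun x hx => mem_cent_one.2 (cm1_ZP c.scal (t.iso P hP) (t.iso Q hQ)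
      (t.cm P hP Q hQ q1.symm) x hx)) fun x hx => mem_cent_one.2 (cm1_ZP c.scal (t.iso _ hP')
      (t.iso Q hQ) (t.cm _ hP' Q hQ q2.symm) x hx) : _ ≤ S.cent _ 1) h3)
  have key : ∀ Q ∈ D, ∃ Q' ∈ D, Cj g (ZP Z Q) (ZP Z Q') := fun Q hQ => by
    by_cases q1 : Q = P
    · exact ⟨P', hP', q1 ▸ h7⟩
    by_cases q2 : Q = P'
    · exact ⟨P, hP, q2 ▸ h8⟩
    · exact ⟨Q, hQ, cj_of_cm (h9 Q hQ q1 q2)⟩
  have hu : S.st u * u = 1 := by rw [h5, h4]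
  refine ⟨g, ⟨mem_iso.2 ⟨sub_mem ((sup_le (ZP_le c.scal (t.iso P hP)) (ZP_le c.scal (t.iso _ hP')) :
    _ ≤ S.cent Z 1) h3) (one_mem_cent Z), hu, q_of_comm (X := {x | ∃ k ∈ P'', x = k.1}) S.st_one
      (one_mul _) ?_ (fun v _ h => ?_) hu (mul_one _) ?_⟩, key,
    fun Q hQ => (key Q hQ).imp fun _ h => ⟨h.1, h.2.inv⟩⟩, h7, h8, cj_of_cm (h9 _ hP'' e' e'')⟩
  · rintro _ ⟨k, hk, rfl⟩
    exact (mem_iso.1 (t.iso _ hP'' hk)).2
  · exact (c.fixU ((t.iso _ hP'').trans (iso_le_UU _)) ((t.iso _ hP'').trans (iso_le_sca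
      (one_mem_cent Z))) (t.nm _ hP'') fun e => t.nle _ hP'' (e.le.trans bot_le)).le
      fun k hk => h _ ⟨k, hk, rfl⟩
  · rintro _ ⟨k, hk, rfl⟩
    exact h9 _ hP'' e' e'' _ (msr (val_mem_spanR hk))

/-- The group `H` induces all cycles of length three. -/
theorem cycle (hF : FLIP) (hP : P ∈ D) (hP' : P' ∈ D) (hP'' : P'' ∈ D) (e : P ≠ P') (e' : P'' ≠ P)
    (e'' : P'' ≠ P') : ∃ h ∈ H, Cj h (ZP Z P') (ZP Z P) ∧ Cj h (ZP Z P) (ZP Z P'') := by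
  obtain ⟨g, g0, g1, g2, g3⟩ := c.flip t hF hP hP' hP'' e e' e''
  obtain ⟨k, k0, k1, k2, k3⟩ := c.flip t hF hP' hP'' hP e''.symm e e'.symm
  have h1 := le_inf c.le (c.le_St t)
  obtain ⟨h, h2, u, h3, h4⟩ := mem_node (c.hairy.nomod h1 inf_le_left) (g := ⁅g, k⁆)
    ⟨c.omb (commutator_mem_commutator g0.1 k0.1),
      commutator_le_self _ (commutator_mem_commutator g0.2 k0.2)⟩
  have h5 := mem_Kr.1 (inv_mem (c.E_le_Kr t h1 le_rfl h3))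
  rw [commutatorElement_def] at h4
  refine ⟨h, h2, ?_⟩
  rw [← mul_inv_eq_iff_eq_mul.2 h4]
  exact ⟨(((g2.mul k2).mul g3.inv).mul k2.inv).mul (h5 _ hP'),
    (((g3.mul k1).mul g2.inv).mul k3.inv).mul (h5 _ hP)⟩

end C5

end Vale.Agent.P183W5
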