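import Vale.Agent.P183W5.TF

/-!
The width step that gives almost simplicity modulo scalars.
-/

set_option linter.unusedSectionVars false

namespace Vale.Agent.P183W5

open Subgroup Vale.Agent.P183A Vale.Agent.P183NK Vale.Agent.P183NK.FS Vale.Agent.P183AL
open scoped commutatorElement

variable {p : ℕ} [Fact p.Prime] {V : Type} [AddCommGroup V] [Module (ZMod p) V] [Finite V]
  {S : FS p V} {Z J J' : S.NR} {n m k : ℕ} {H a b y X P P' Q Q' : Subgroup S.Eˣ} {g : S.Eˣ}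
  {D D' : Set (Subgroup S.Eˣ)}

theorem cnj_ed (h1 : (1 : S.E) ∈ J) (h : Cj g J J') : cnj g (ed J X) = ed J' (cnj g X) := by
  have key : ∀ {g : S.Eˣ} {J J' : S.NR} {X}, (1 : S.E) ∈ J → Cj g J J' →
      cnj g (ed J X) ≤ ed J' (cnj g X) := fun {g J J' X} h1 h => by
    have h3 : X ⊔ cR J ≤ cnj g⁻¹ (cnj g X ⊔ cR J') := sup_le
      (cnj_inv_cnj.ge.trans (cnj_mono le_sup_left)) fun w hw => cnj_mono le_sup_right fun d hd => by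
        simpa [mul_assoc] using congrArg (fun x => g.1 * x * g⁻¹.1) (hw _ ((h.inv d).1 hd))
    have h2 : ∀ u ∈ pj J X, g * u * g⁻¹ ∈ pj J' (cnj g X) := fun u hu =>
      ⟨subset_closure ((h _).1 ((mem_sca h1).1 hu.1)), h3 hu.2⟩
    refine cnj_le_iff.2 (commutator_le.2 fun u hu v hv => ?_)
    rw [mem_cnj, inv_inv, conjugate_commutatorElement]
    exact commutator_mem_commutator (h2 u hu) (h2 v hv)
  refine le_antisymm (key h1 h) (cnj_cnj_inv.ge.trans (cnj_mono ?_))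
  simpa only [cnj_inv_cnj] using key (X := cnj g X) (by simpa using (h 1).1 h1) h.inv

theorem St_le (h : ∀ P ∈ D, ∃ Q ∈ D', ZP Z P = ZP Z Q) (h' : ∀ Q ∈ D', ∃ P ∈ D, ZP Z P = ZP Z Q) :
    St Z D' ≤ St Z D := fun _ hg => ⟨fun P hP =>
  let ⟨Q, h1, h2⟩ := h P hP
  let ⟨R, h3, h4⟩ := hg.1 Q h1
  let ⟨T, h5, h6⟩ := h' R h3
  ⟨T, h5, h2 ▸ h6 ▸ h4⟩, fun P hP =>
  let ⟨Q, h1, h2⟩ := h P hP
  let ⟨R, h3, h4⟩ := hg.2 Q h1
  let ⟨T, h5, h6⟩ := h' R h3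
  ⟨T, h5, h2 ▸ h6 ▸ h4⟩⟩

/-- The components of the node `a`. -/
def cps (Z : S.NR) (H a : Subgroup S.Eˣ) : Set (Subgroup S.Eˣ) := {P | Cp (EE H a) (S.sca Z) P}

namespace C5

variable (c : C5 S Z n H a b) (hc : CC H a ⊓ S.om (S.cent Z 1) ≤ S.sca Z)
include c hc

theorem mc : MC a (EE H a) (S.sca Z) :=
  ⟨nm_EE H a, c.nm_sca.mono c.le, cm_sca_iso c.scal c.E_iso, fun _ h1 h2 =>
    (le_or_EE_le c.nomod (h1.1.trans (EE_le c.nomod)) h2).imp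
      (fun e => (le_inf (le_CC e h2) (h1.1.trans c.E_om)).trans hc) (le_antisymm h1.1),
    fun e => EE_nle c.nomod ((EE_perfect c.nomod).trans (e.trans c.sca))⟩

theorem tf : TF Z H a (cps Z H a) :=
  ⟨fun _ h => h.le.trans c.E_iso, fun _ h => h.nle, fun _ h _ h' => (c.mc hc).cm' h h',
    fun _ hg _ h => h.cnj (c.mc hc).nE (c.mc hc).nN hg, fun _ h => h.nm⟩

theorem two (h : ¬ S.ASL Z H a) : ∃ P ∈ cps Z H a, ∃ P' ∈ cps Z H a, P ≠ P' := by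
  by_contra e
  push Not at e
  refine h ⟨hc, fun R h1 h2 => (em _).imp_right fun h3 => le_antisymm h1 ?_⟩
  obtain ⟨P, h4, h5⟩ := exists_cp ⟨h1, h2⟩ h3
  rw [← (c.mc hc).sSup_orb h5]
  refine sSup_le ?_
  rintro _ ⟨g, hg, rfl⟩
  exact (e _ ((c.tf hc).inv g hg P h5) P h5).le.trans h4

theorem other (h : ¬ S.ASL Z H a) (Q : Subgroup S.Eˣ) : ∃ P ∈ cps Z H a, P ≠ Q := by
  obtain ⟨P, h1, P', h2, h3⟩ := c.two hc h
  by_cases e : P = Q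
  exacts [⟨P', h2, e ▸ h3.symm⟩, ⟨P, h1, e⟩]

theorem le_sca' (hP : P ∈ cps Z H a) (hX : X ≤ S.iso (S.cent Z 1))
    (h : ∀ P ∈ cps Z H a, Cm P X) : X ≤ S.sca Z :=
  c.le_sca (sSup_le (c.tf hc).iso) (nm_sSup_of_cnj (c.tf hc).inv)
    (fun e => hP.nle ((le_sSup hP).trans e)) hX (Cm.sSup h).symm

variable (h1 : a ≤ y) (h2 : y ≤ b)
include h1 h2

theorem hcy : CC H y ⊓ S.om (S.cent Z 1) ≤ S.sca Z := (inf_le_inf_right _ (CC_anti h1)).trans hc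

theorem tfy : TF Z H y (cps Z H y) := (c.up h1 h2).tf (c.hcy hc h1 h2)

theorem tpy (hQ : Q ∈ cps Z H y) : TP Z Q (sSup (cps Z H y \ {Q})) :=
  (c.up h1 h2).tp (c.tfy hc h1 h2) hQ

omit hc in
theorem nmQ (hQ : Q ∈ cps Z H y) : S.NmR (EE H a) (ZP Z Q) :=
  (c.nmZ.mono (EE_le c.nomod)).sup' (nmR_spanR (hQ.nm.mono (c.E_mono h1 h2)))

theorem cm_of_ed (hP : P ∈ cps Z H a) (hQ : Q ∈ cps Z H y) (h : ed (ZP Z Q) P ≤ S.sca Z) :
    Cm P Q := by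
  have t := c.tpy hc h1 h2 hQ
  have h3 : P ≤ pj (ZP Z Q) P ⊔ cR (ZP Z Q) := fun g hg => by
    obtain ⟨u, h3, h4⟩ := exists_pj (c.tp_id t) (one_ZP Q) hg ((t.symm.gen.trans (sup_le_sup_right
      (fun x hx => mem_cent_one.2 (cm1_ZP c.scal t.iso' t.iso t.cm.symm x hx)) _))
      (c.R_le (val_mem_spanR (hP.le hg)))) ((c.nmQ h1 h2 hQ).mono hP.le)
    rw [← mul_inv_cancel_right g u]
    exact mul_mem (mem_sup_right h4) (mem_sup_left (inv_mem h3))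
  have h4 := ((c.mc hc).perfect hP).trans ((commutator_mono h3 h3).trans
    ((P183WA.comm_sup_le ((cm_sca (one_ZP Q)).mono inf_le_left le_rfl)).trans (sup_le (h.trans
      fun z hz => c.cmZ (ZP_le c.scal t.iso) _ ((mem_sca c.scal.mem).1 hz)) (commutator_le_self _))))
  exact fun g hg k hk => Units.ext (h4 hg _ (msr (val_mem_spanR hk)))

theorem cm_ed (hP : P ∈ cps Z H a) (hQ : Q ∈ cps Z H y) (hP' : P' ∈ cps Z H a)
    (hQ' : Q' ∈ cps Z H y) (e : (P, Q) ≠ (P', Q')) : Cm (ed (ZP Z Q) P) (ed (ZP Z Q') P') := by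
  have t := c.tpy hc h1 h2 hQ
  by_cases e' : Q = Q'
  · subst e'
    have hn := fun {P} (hP : P ∈ cps Z H a) => nm_cR ((c.nmQ h1 h2 hQ).mono hP.le)
    refine (three (Y := pj (ZP Z Q) P') fun u hu v hv => Units.ext (c.cmZ (ZP_le c.scal t.iso) _
      (c.tp_ctr t _ ((mem_sca (one_ZP Q)).1 (commutator_le_self _ (commutator_mono inf_le_left
        inf_le_left hu))) ?_) _ ((mem_sca (one_ZP Q)).1 hv.1))).mono le_rfl (commutator_le_self _)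
    exact ((commutator_mono inf_le_right inf_le_right).trans ((comm_sup_sup (hn hP') (hn hP)).trans
      (sup_le ((cm_iff_comm.1 ((c.mc hc).cm' hP' hP fun e' => e (by rw [e']))).le.trans bot_le)
        le_rfl))) hu
  · exact fun u hu v hv => Units.ext (cm1_ZP c.scal t.iso ((c.tfy hc h1 h2).iso _ hQ')
      ((c.tfy hc h1 h2).cm _ hQ _ hQ' e') _ ((mem_sca (one_ZP Q)).1 (ed_le _ _ hu)) _
      ((mem_sca (one_ZP Q')).1 (ed_le _ _ hv)))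

theorem tf_ed (hy : ¬ S.ASL Z H y) : TF Z H a
    {W | ¬ W ≤ S.sca Z ∧ ∃ P ∈ cps Z H a, ∃ Q ∈ cps Z H y, W = ed (ZP Z Q) P} := by
  have ty := c.tfy hc h1 h2
  refine ⟨?_, fun _ h => h.1, ?_, ?_, ?_⟩
  · rintro _ ⟨-, P, hP, Q, hQ, rfl⟩ u hu
    have t := c.tpy hc h1 h2 hQ
    have h3 := (mem_sca (one_ZP Q)).1 (ed_le _ _ hu)
    have h4 := ed_le_UU c.scal (one_ZP Q) (ZP_le c.scal t.iso) (ZP_st c.scal t.iso) (c.tp_ctr t)
      (hP.le.trans (c.E_iso.trans (iso_le_UU _))) ((c.nmQ h1 h2 hQ).mono hP.le) hu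
    obtain ⟨Q', hQ', e⟩ := (c.up h1 h2).other (c.hcy hc h1 h2) hy Q
    refine mem_iso.2 ⟨sub_mem (ZP_le c.scal t.iso h3) (one_mem_cent Z), h4,
      q_of_comm (X := {x | ∃ k ∈ Q', x = k.1}) S.st_one (one_mul _) ?_ (fun v _ h => ?_) h4
        (mul_one _) ?_⟩
    · rintro _ ⟨k, hk, rfl⟩
      exact (mem_iso.1 (ty.iso _ hQ' hk)).2
    · exact ((c.up h1 h2).fixU ((ty.iso _ hQ').trans (iso_le_UU _)) ((ty.iso _ hQ').trans
        (iso_le_sca (one_mem_cent Z))) hQ'.nm fun e => hQ'.nle (e.le.trans bot_le)).le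
        fun k hk => h _ ⟨k, hk, rfl⟩
    · rintro _ ⟨k, hk, rfl⟩
      exact cm1_ZP c.scal t.iso (ty.iso _ hQ') (ty.cm _ hQ _ hQ' e.symm) _ h3 _
        (msr (val_mem_spanR hk))
  · rintro _ ⟨-, P, hP, Q, hQ, rfl⟩ _ ⟨-, P', hP', Q', hQ', rfl⟩ e
    exact c.cm_ed hc h1 h2 hP hQ hP' hQ' fun e' => e (by cases e'; rfl)
  · rintro g hg _ ⟨h3, P, hP, Q, hQ, rfl⟩
    exact ⟨fun e => h3 ((cnj_le_iff.1 e).trans (cnj_eq_of_nm c.nm_sca (c.le (inv_mem hg))).le),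
      _, (c.tf hc).inv g hg P hP, _, ty.inv g (h1 hg) Q hQ,
      cnj_ed (one_ZP Q) (cj_ZP c.scal (c.agam hg) Q)⟩
  · rintro _ ⟨-, P, hP, Q, hQ, rfl⟩
    exact nm_ed (one_ZP Q) (c.nmQ h1 h2 hQ) hP.nm

/-- The components of a node that is not almost simple are determined by those of `a`. -/
theorem bad (hF : FLIP) (ha : ¬ S.ASL Z H a) (hy : ¬ S.ASL Z H y) : y ≤ St Z (cps Z H a) := by
  have t := c.tf_ed hc h1 h2 hy
  have ta := c.tf hc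
  have ty := c.tfy hc h1 h2
  let e : Subgroup S.Eˣ × Subgroup S.Eˣ → Subgroup S.Eˣ := fun x => ed (ZP Z x.2) x.1
  let I : Subgroup S.Eˣ × Subgroup S.Eˣ → Prop := fun x => x.1 ∈ cps Z H a ∧ x.2 ∈ cps Z H y
  have mem : ∀ x, I x → ¬ e x ≤ S.sca Z → e x ∈ {W | ¬ W ≤ S.sca Z ∧ ∃ P ∈ cps Z H a,
    ∃ Q ∈ cps Z H y, W = ed (ZP Z Q) P} := fun x hx h => ⟨h, _, hx.1, _, hx.2, rfl⟩
  have inj : ∀ x x', I x → I x' → ¬ e x ≤ S.sca Z → ¬ e x' ≤ S.sca Z →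
      ZP Z (e x) = ZP Z (e x') → x = x' := fun x x' i i' h h' e' => by_contra fun e'' =>
    c.eq_of_cm t (mem x i h) (t.iso _ (mem x' i' h')) e' (c.cm_ed hc h1 h2 i.1 i.2 i'.1 i'.2 e'')
  have disc : ∀ π : _ → Subgroup S.Eˣ, (∀ g x, π (cnj g x.1, cnj g x.2) = cnj g (π x)) →
      ∀ x x' x'', I x → I x' → I x'' → ¬ e x ≤ S.sca Z → ¬ e x' ≤ S.sca Z → ¬ e x'' ≤ S.sca Z →
      π x = π x' → π x'' ≠ π x → x = x' := fun π hπ x x' x'' i i' i'' h h' h'' e1 e2 => by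
    by_contra e3
    obtain ⟨g, hg, k1, k2⟩ := c.cycle t hF (mem x i h) (mem x' i' h') (mem x'' i'' h'')
      (fun e => e3 (inj _ _ i i' h h' (by rw [e])))
      (fun e => e2 (by rw [inj _ _ i'' i h'' h (by rw [e])]))
      fun e => e2 (by rw [inj _ _ i'' i' h'' h' (by rw [e]), e1])
    replace hg := c.hairy.le hg
    have key : ∀ x x', I x → I x' → ¬ e x ≤ S.sca Z → ¬ e x' ≤ S.sca Z →
        Cj g (ZP Z (e x)) (ZP Z (e x')) → π x' = cnj g (π x) := fun x x' i i' h h' k => by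
      have h3 : cnj g (e x) = e (cnj g x.1, cnj g x.2) :=
        cnj_ed (one_ZP _) (cj_ZP c.scal (c.agam hg) _)
      rw [← hπ, inj _ _ i' ⟨ta.inv g hg _ i.1, ty.inv g (h1 hg) _ i.2⟩ h'
        (h3 ▸ (t.inv g hg _ (mem x i h)).1) (h3 ▸ k.eq (cj_ZP c.scal (c.agam hg) _))]
    exact e2 (by rw [key _ _ i i'' h h'' k2, e1, ← key _ _ i' i h' h k1, e1])
  have row : ∀ P ∈ cps Z H a, ∃ Q ∈ cps Z H y, ¬ e (P, Q) ≤ S.sca Z := fun P hP => by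
    by_contra h
    push Not at h
    obtain ⟨Q, hQ, -⟩ := (c.up h1 h2).two (c.hcy hc h1 h2) hy
    exact hP.nle ((c.up h1 h2).le_sca' (c.hcy hc h1 h2) hQ (ta.iso P hP) fun Q hQ =>
      (c.cm_of_ed hc h1 h2 hP hQ (h Q hQ)).symm)
  have col : ∀ Q ∈ cps Z H y, ∃ P ∈ cps Z H a, ¬ e (P, Q) ≤ S.sca Z := fun Q hQ => by
    by_contra h
    push Not at h
    obtain ⟨P, hP, -⟩ := c.two hc ha
    exact hQ.nle (c.le_sca' hc hP (ty.iso Q hQ) fun P hP => c.cm_of_ed hc h1 h2 hP hQ (h P hP))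
  have fin : ∀ P ∈ cps Z H a, ∀ Q ∈ cps Z H y, ¬ e (P, Q) ≤ S.sca Z → ZP Z P = ZP Z Q := by
    intro P hP Q hQ h
    have tp := c.tp ta hP
    have tq := c.tpy hc h1 h2 hQ
    refine le_antisymm (fun x hx => c.tp_mem tq (ZP_le c.scal tp.iso hx) (cm1_ZP c.scal tp.iso
      tq.iso' (Cm.sSup fun Q' hQ' => (c.cm_of_ed hc h1 h2 hP hQ'.1 ?_).symm).symm x hx))
      fun x hx => c.tp_mem tp (ZP_le c.scal tq.iso hx) (cm1_ZP c.scal tq.iso tp.iso'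
        (Cm.sSup fun P' hP' => c.cm_of_ed hc h1 h2 hP'.1 hQ ?_).symm x hx) <;> by_contra h'
    · obtain ⟨R, hR, e1⟩ := c.other hc ha P
      obtain ⟨T, hT, e2⟩ := row R hR
      exact hQ'.2 (congrArg Prod.snd (disc Prod.fst (fun _ _ => rfl) (P, Q') (P, Q) (R, T)
        ⟨hP, hQ'.1⟩ ⟨hP, hQ⟩ ⟨hR, hT⟩ h' h e2 rfl e1))
    · obtain ⟨T, hT, e1⟩ := (c.up h1 h2).other (c.hcy hc h1 h2) hy Q
      obtain ⟨R, hR, e2⟩ := col T hT
      exact hP'.2 (congrArg Prod.fst (disc Prod.snd (fun _ _ => rfl) (P', Q) (P, Q) (R, T)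
        ⟨hP'.1, hQ⟩ ⟨hP, hQ⟩ ⟨hR, hT⟩ h' h e2 rfl e1))
  exact ((c.up h1 h2).le_St ty).trans (St_le
    (fun P hP => (row P hP).imp fun Q h => ⟨h.1, fin P hP Q h.1 h.2⟩)
    fun Q hQ => (col Q hQ).imp fun P h => ⟨h.1, fin P h.1 Q hQ h.2⟩)

end C5

/-- The step `W5`. -/
theorem w5 {c₁ c₂ c₃ : ℕ} (hD : W5D) (hF : FLIP) (h1 : N1 c₁) (hN : N2 c₂) (hB : BAS c₃) : W5 := by
  obtain ⟨d, m₀, j, hD⟩ := hD
  refine ⟨d + c₁ + c₂ + c₃, m₀ + 3, j + 2, fun p _ V _ _ _ S Z n H a b m k hL hn hm hH hg hP => ?_⟩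
  obtain ⟨a₁, l₁, g₁, q₁⟩ := hD p V S Z n H a b m (k + 2) hL (by omega) (by omega) hH
    (by rwa [add_right_comm, add_assoc]) hP
  obtain ⟨b1, b2, b3, b4⟩ := hB p V S Z 1 n hL.scal hL.rank
  have c₀ : Cx S Z n H a b := ⟨hL, hH, hg.lt.le, hP.1, fun x hx h => b2.le ⟨hx, hP.2.1 ▸
    mem_cent_spanR.2 fun g hg => (h g hg).symm⟩, top_inv hN hB hL.scal hL.rank (by omega) (by omega)⟩
  have c : C5 S Z n H a₁ b := ⟨c₀.up l₁ g₁.lt.le,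
    hP.2.1.ge.trans (spanR_mono (c₀.E_mono l₁ g₁.lt.le)), q₁, fun X h2 h3 =>
      ((h1 p V S _ 1 n b1 (b4 (by omega)) b3 (by omega)).2 X h2 h3).imp_left fun h g hg =>
        (mem_sca hL.scal.mem).2 (b2.le ⟨iso_mem (one_mem_cent Z) (h2 hg), mem_cent_one.2 (h g hg)⟩)⟩
  obtain ⟨a₂, l₂, g₂, q₂⟩ := c.core (k := k + 1) (by omega) g₁
  have c₂ := c.up l₂.le g₂.lt.le
  by_cases ha : S.ASL Z H a₂
  · exact ⟨a₂, l₁.trans l₂.le, g₂.pred, ha⟩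
  obtain ⟨P, hP, P', hP', e⟩ := c₂.two q₂ ha
  obtain ⟨a₃, l₃, g₃, q₃⟩ := g₂.raise_not_le (by omega) (c₂.St_lt (c₂.tf q₂) hP hP' e)
  exact ⟨a₃, l₁.trans (l₂.trans l₃).le, g₃, by_contra fun h =>
    q₃ (le_inf g₃.lt.le (c₂.bad q₂ l₃.le g₃.lt.le hF ha h))⟩

end Vale.Agent.P183W5
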